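import Vale.Agent.P092.H19.ShB
import Vale.Agent.P092.H377.Com
import Vale.Agent.P092.H377.PSL
import Vale.Agent.P092.H670.Final

/-!
P092 (helper19): the final statements from the sharp theorem in the row model.
-/

set_option linter.all false

open scoped InnerProductSpace
open Filter Topology ContinuousLinearMap MeasureTheory

namespace Vale.Agent.P092.H19

open Vale.Agent.P092.H160 Vale.Agent.P092.H553 Vale.Agent.P092.H432 Vale.Agent.P092.H820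
open Vale.Agent.P092.H377 Vale.Agent.P092.H670

open Vale.Agent.P092.H655 (SLR IsLat TraceRep)

/-- Every nontrivial conjugacy class is infinite. -/
def Icc' (G : Type) [Group G] : Prop := ∀ g : G, g ≠ 1 → Set.Infinite {y : G | ∃ h, y = h * g * h⁻¹}

/-- The sharp theorem in the row model. -/
def SharpRow : Prop := ∀ m n : ℕ, 1 ≤ m → m < n → ∀ (Γ₀ : Subgroup (SLR m)), DiscreteTopology Γ₀ →
  ∀ (Λ₀ : Subgroup (SLR n)), IsLat n Λ₀ → ∀ (ι : Type) [Fintype ι] (t : ℝ)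
  (R : Λ₀ → (Ell2 (Γ₀ × ι) →L[ℂ] Ell2 (Γ₀ × ι))), ¬ ARep t R

/-- Inversion of amplifications. -/
def Inv : Prop := ∀ (Γ Λ : Type) [Group Γ] [Group Λ], Icc' Γ → ∀ (ι : Type) [Fintype ι] (t : ℝ)
  (R : Λ → (Ell2 (Γ × ι) →L[ℂ] Ell2 (Γ × ι))), AFrame t R →
    ∃ (k : ℕ) (t' : ℝ) (R' : Γ → (Ell2 (Λ × Fin k) →L[ℂ] Ell2 (Λ × Fin k))), ARep t' R'

section

variable {m n : ℕ} {Γ Λ : Type} [Group Γ] [Group Λ] {Γ₀ : Subgroup (SLR m)}
  {Λ₀ : Subgroup (SLR n)}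

theorem no_arep (hS : SharpRow) (hm : 1 ≤ m) (hmn : m < n) (hΓ : DiscreteTopology Γ₀)
    (hΛ : IsLat n Λ₀) (i : Γ₀ →* Γ) (j : Λ₀ →* Λ) (hi : Function.Injective i)
    (hfi : i.range.FiniteIndex) (hj : Function.Injective j)
    (ι : Type) [Fintype ι] (t : ℝ) (R : Λ → (Ell2 (Γ × ι) →L[ℂ] Ell2 (Γ × ι))) : ¬ ARep t R := by
  intro hR
  obtain ⟨κ, _, t₁, R₁, h2⟩ := arep_finiteIndex i (arep_comp hR j hj) hi
  exact hS m n hm hmn Γ₀ hΓ Λ₀ hΛ _ _ _ h2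

theorem no_emb (hS : SharpRow) (hm : 1 ≤ m) (hmn : m < n) (hΓ : DiscreteTopology Γ₀)
    (hΛ : IsLat n Λ₀) (i : Γ₀ →* Γ) (j : Λ₀ →* Λ) (hi : Function.Injective i)
    (hfi : i.range.FiniteIndex) (hj : Function.Injective j) (k : ℕ)
    (U : Λ → H103.St.MOp k Γ) : ¬ TraceRep Λ Γ k U := by
  intro e
  obtain ⟨t, R, hR⟩ := arep_of_traceRep e
  exact no_arep hS hm hmn hΓ hΛ i j hi hfi hj _ _ _ hR

theorem no_iso (hS : SharpRow) (hm : 1 ≤ m) (hmn : m < n) (hΓ : DiscreteTopology Γ₀)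
    (hΛ : IsLat n Λ₀) (i : Γ₀ →* Γ) (j : Λ₀ →* Λ) (hi : Function.Injective i)
    (hfi : i.range.FiniteIndex) (hj : Function.Injective j) (hI : Icc' Γ ∨ Icc' Λ)
    (k : ℕ) (p : H103.St.MOp k Γ) (hp : H103.St.IsProj p) :
    IsEmpty (H103.St.CornerIso Λ Γ k p) := by
  refine ⟨fun c => ?_⟩
  obtain ⟨t, R, hR⟩ := aframe_of_iso hp c hI
  exact no_arep hS hm hmn hΓ hΛ i j hi hfi hj _ _ _ hR.toARep

theorem no_iso' (hS : SharpRow) (hV : Inv) (hm : 1 ≤ m) (hmn : m < n) (hΓ : DiscreteTopology Γ₀)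
    (hΛ : IsLat n Λ₀) (i : Γ₀ →* Γ) (j : Λ₀ →* Λ) (hi : Function.Injective i)
    (hfi : i.range.FiniteIndex) (hj : Function.Injective j) (hI : Icc' Λ)
    (k : ℕ) (p : H103.St.MOp k Λ) (hp : H103.St.IsProj p) :
    IsEmpty (H103.St.CornerIso Γ Λ k p) := by
  refine ⟨fun c => ?_⟩
  obtain ⟨t, R, hR⟩ := aframe_of_iso hp c (Or.inl hI)
  obtain ⟨l, t', R', hR'⟩ := hV Λ Γ hI _ _ _ hR
  exact no_arep hS hm hmn hΓ hΛ i j hi hfi hj _ _ _ hR'

end

section psl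

variable {n : ℕ}

lemma isLat_imR (L : Subgroup (Matrix.SpecialLinearGroup (Fin n) ℤ)) [L.FiniteIndex] :
    IsLat n (imR L) := by
  refine ⟨discrete_imR L, ?_⟩
  let _ : MeasurableSpace (Matrix.SpecialLinearGroup (Fin n) ℝ ⧸ imR L) := borel _
  have _ : BorelSpace (Matrix.SpecialLinearGroup (Fin n) ℝ ⧸ imR L) := ⟨rfl⟩
  obtain ⟨ν, h1, h2⟩ := exists_prob_imR L
  refine ⟨ν, ?_, ?_, fun g s hs => ?_⟩
  · exact IsProbabilityMeasure.ne_zero ν
  · rw [h1.measure_univ]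
    exact ENNReal.one_lt_top
  · have hm : Measurable fun x : Matrix.SpecialLinearGroup (Fin n) ℝ ⧸ imR L => g • x :=
      (continuous_const_smul g).measurable
    conv_rhs => rw [← h2 g]
    rw [Measure.map_apply hm hs]

theorem exists_psl (L : Subgroup (Matrix.ProjectiveSpecialLinearGroup (Fin n) ℤ)) [L.FiniteIndex] :
    ∃ (D : Subgroup (SLR n)) (j : D →* L), IsLat n D ∧ Function.Injective j ∧
      j.range.FiniteIndex := by
  obtain ⟨G, j, hG, hj, hr, -⟩ := exists_lift L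
  refine ⟨imR G, j.comp (imEquiv G).symm.toMonoidHom, isLat_imR G,
    hj.comp (imEquiv G).symm.injective, ?_⟩
  have h1 : (j.comp (imEquiv G).symm.toMonoidHom).range = j.range := by
    rw [MonoidHom.range_eq_map, ← Subgroup.map_map, ← MonoidHom.range_eq_map,
      MonoidHom.range_eq_top.2 (imEquiv G).symm.surjective, ← MonoidHom.range_eq_map]
  rw [h1]
  exact hr

lemma icc_psl' (L : Subgroup (Matrix.ProjectiveSpecialLinearGroup (Fin n) ℤ)) [L.FiniteIndex] :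
    Icc' L := icc_psl L

theorem no_iso_psl_lt (hS : SharpRow) {m n : ℕ} (hm : 1 ≤ m) (hmn : m < n)
    (Γ : Subgroup (Matrix.ProjectiveSpecialLinearGroup (Fin m) ℤ)) [Γ.FiniteIndex]
    (Λ : Subgroup (Matrix.ProjectiveSpecialLinearGroup (Fin n) ℤ)) [Λ.FiniteIndex]
    (k : ℕ) (p : H103.St.MOp k Γ) (hp : H103.St.IsProj p) :
    IsEmpty (H103.St.CornerIso Λ Γ k p) := by
  obtain ⟨D, i, hD, hi, hir⟩ := exists_psl Γ
  obtain ⟨E, j, hE, hj, hjr⟩ := exists_psl Λ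
  exact no_iso hS hm hmn hD.disc hE i j hi hir hj (Or.inl (icc_psl' Γ)) k p hp

theorem no_iso_psl (hS : SharpRow) (hV : Inv) {m n : ℕ} (hm : 1 ≤ m) (hn : 1 ≤ n) (hmn : m ≠ n)
    (Γ : Subgroup (Matrix.ProjectiveSpecialLinearGroup (Fin m) ℤ)) [Γ.FiniteIndex]
    (Λ : Subgroup (Matrix.ProjectiveSpecialLinearGroup (Fin n) ℤ)) [Λ.FiniteIndex]
    (k : ℕ) (p : H103.St.MOp k Γ) (hp : H103.St.IsProj p) :
    IsEmpty (H103.St.CornerIso Λ Γ k p) := by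
  rcases lt_or_gt_of_ne hmn with h | h
  · exact no_iso_psl_lt hS hm h Γ Λ k p hp
  · obtain ⟨D, i, hD, hi, hir⟩ := exists_psl Γ
    obtain ⟨E, j, hE, hj, hjr⟩ := exists_psl Λ
    exact no_iso' hS hV hn h hE.disc hD j i hj hjr hi (icc_psl' Γ) k p hp

end psl

/-- The final statement of helper655 from the sharp theorem in the row model. -/
theorem final_of (hS : SharpRow) : H655.Final := by
  refine ⟨fun m n hm hmn Γ₀ hΓ Λ₀ hΛ Γ Λ _ _ i j hi hfi hj k => ⟨fun U => ?_, fun hI p hp => ?_⟩,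
    fun m n hm hmn Γ Λ hΓ hΛ k p hp => ?_⟩
  · exact no_emb hS hm hmn hΓ hΛ i j hi hfi hj k U
  · exact no_iso hS hm hmn hΓ hΛ i j hi hfi hj (Or.inl hI) k p hp
  · haveI := hΓ
    haveI := hΛ
    exact no_iso_psl_lt hS (by omega) hmn Γ Λ k p hp

end Vale.Agent.P092.H19
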