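import Vale.Agent.P092.H655.Stmt
import Vale.Agent.P092.H820.Icc
import Vale.Agent.P092.H160.Bridge

/-!
P092 (helper19): from the elementary statements to the row model.
-/

set_option linter.all false

open scoped InnerProductSpace
open Filter Topology ContinuousLinearMap

namespace Vale.Agent.P092.H19

open Vale.Agent.P092.H160 Vale.Agent.P092.H553 Vale.Agent.P092.H432 Vale.Agent.P092.H820

section br

variable {Γ Λ : Type} [Group Γ] [Group Λ] {k : ℕ}

/-- the matrix over `L(Γ)` of an elementary matrix -/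
noncomputable def matL (A : H103.St.MOp k Γ) (hA : H103.St.InM A) : Matrix (Fin k) (Fin k) (LG Γ) :=
  Matrix.of fun i j => ⟨A i j, (inL_iff _).mp (hA i j)⟩

lemma matL_congr {A B : H103.St.MOp k Γ} {hA : H103.St.InM A} {hB : H103.St.InM B} (h : A = B) :
    matL A hA = matL B hB := by subst h; rfl

lemma matL_inj {A B : H103.St.MOp k Γ} {hA : H103.St.InM A} {hB : H103.St.InM B}
    (h : matL A hA = matL B hB) : A = B := by
  funext i j
  exact congrArg (fun X : Matrix (Fin k) (Fin k) (LG Γ) => ((X i j : LG Γ) : Ell2 Γ →L[ℂ] Ell2 Γ)) h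

lemma matL_mul (A B : H103.St.MOp k Γ) (hA : H103.St.InM A) (hB : H103.St.InM B)
    (hAB : H103.St.InM (H103.St.mmul A B)) :
    matL (H103.St.mmul A B) hAB = matL A hA * matL B hB := by
  ext1 i j
  apply Subtype.ext
  rw [Matrix.mul_apply]
  have h : ((∑ l, matL A hA i l * matL B hB l j : LG Γ) : Ell2 Γ →L[ℂ] Ell2 Γ) =
      ∑ l, (matL A hA i l : Ell2 Γ →L[ℂ] Ell2 Γ) * (matL B hB l j : Ell2 Γ →L[ℂ] Ell2 Γ) := by
    simp only [AddSubmonoidClass.coe_finsetSum]
    rfl
  rw [h]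
  rfl

lemma matL_add (A B : H103.St.MOp k Γ) (hA : H103.St.InM A) (hB : H103.St.InM B)
    (hAB : H103.St.InM (H103.St.madd A B)) :
    matL (H103.St.madd A B) hAB = matL A hA + matL B hB := by
  ext1 i j
  rfl

lemma matL_smul {c : ℂ} {A B : H103.St.MOp k Γ} (hA : H103.St.InM A) (hB : H103.St.InM B)
    (h : H103.St.IsMSmul c A B) : matL B hB = c • matL A hA := by
  ext1 i j
  apply Subtype.ext
  exact (isSmul_iff _ _ _).mp (h i j)

lemma matL_star {A B : H103.St.MOp k Γ} (hA : H103.St.InM A) (hB : H103.St.InM B)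
    (h : H103.St.IsMAdj A B) : matL B hB = star (matL A hA) := by
  ext1 i j
  apply Subtype.ext
  exact (isAdj_iff _ _).mp (h j i)

lemma mtr_eq (A : H103.St.MOp k Γ) (hA : H103.St.InM A) :
    H103.St.mtr A = ∑ i, tr (matL A hA i i) := rfl

lemma inL_mul {S T : H160.St.Op Γ} (hS : H160.St.InL S) (hT : H160.St.InL T) :
    H160.St.InL (H160.St.mul S T) := by
  rw [inL_iff] at hS hT ⊢
  exact mul_mem hS hT

lemma inM_mmul {A B : H103.St.MOp k Γ} (hA : H103.St.InM A) (hB : H103.St.InM B) :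
    H103.St.InM (H103.St.mmul A B) := by
  intro i j
  rw [inL_iff]
  exact sum_mem fun l _ => (inL_iff _).mp (inL_mul (hA i l) (hB l j))

/-- A representation by partial isometries of the corner with the trace of the regular
representation. -/
theorem arep_of_mat (V : Λ → Matrix (Fin k) (Fin k) (LG Γ)) (hmul : ∀ s s', V s * V s' = V (s * s'))
    (hadj : ∀ s, star (V s) = V s⁻¹) (hone : ∑ i, tr (V 1 i i) ≠ 0)
    (htr : ∀ s, s ≠ 1 → ∑ i, tr (V s i i) = 0) :
    ∃ (t : ℝ) (R : Λ → (Ell2 (Γ × Fin k) →L[ℂ] Ell2 (Γ × Fin k))), ARep t R := by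
  have h1 : ∀ (s : Λ) (i : Fin k), ⟪(ep i : Ell2 (Γ × Fin k)), cjx (opM (V s)) (ep i)⟫_ℂ =
      (starRingEnd ℂ) (tr (V s i i)) := by
    intro s i
    rw [cjx_apply, jx_ep, inner_ep_jx, inner_ep_opM]
  have h2 : ∑ i, tr (V 1 i i) = ((∑ i, ‖opM (V 1) (ep i : Ell2 (Γ × Fin k))‖ ^ 2 : ℝ) : ℂ) := by
    rw [Complex.ofReal_sum]
    refine Finset.sum_congr rfl fun i _ => ?_
    have h3 : V 1 = star (V 1) * V 1 := by
      rw [hadj, hmul, inv_one, one_mul]
    conv_lhs => rw [h3]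
    rw [← inner_ep_opM, opM_mul, opM_star, mul_ap, star_eq_adjoint, adjoint_inner_right,
      inner_self_eq_norm_sq_to_K]
    norm_cast
  obtain ⟨t, ht⟩ : ∃ t : ℝ, t = ∑ i, ‖opM (V 1) (ep i : Ell2 (Γ × Fin k))‖ ^ 2 := ⟨_, rfl⟩
  rw [← ht] at h2
  have ht0 : 0 ≤ t := by rw [ht]; positivity
  have htpos : 0 < t := lt_of_le_of_ne ht0 fun h3 => hone (by rw [h2, ← h3]; norm_num)
  refine ⟨t, fun s => cjx (opM (V s)), ?_⟩
  exact
    { ra := fun v => ra_cjx (opM_mem _)
      mul := fun v w => by rw [← hmul, opM_mul, cjx_mul]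
      adj := fun v => by rw [cjx_adjoint, ← hadj, opM_star, star_eq_adjoint]
      pos := htpos
      tr_one := by
        simp only [h1]
        rw [← map_sum, h2, Complex.conj_ofReal]
      tr_zero := fun v hv => by
        simp only [h1]
        rw [← map_sum, htr v hv, map_zero] }

/-- From an embedding to the row model. -/
theorem arep_of_traceRep {U : Λ → H103.St.MOp k Γ} (e : H655.TraceRep Λ Γ k U) :
    ∃ (t : ℝ) (R : Λ → (Ell2 (Γ × Fin k) →L[ℂ] Ell2 (Γ × Fin k))), ARep t R := by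
  refine arep_of_mat (fun s => matL (U s) (e.mem s)) (fun s s' => ?_) (fun s => ?_) ?_
    (fun s hs => ?_)
  · rw [← matL_mul _ _ _ _ (inM_mmul (e.mem s) (e.mem s'))]
    exact matL_congr (e.mul s s')
  · exact (matL_star _ _ (e.adj s)).symm
  · rw [← mtr_eq]; exact e.tr_one
  · rw [← mtr_eq]; exact e.tr_zero s hs

/-- The homomorphism of an elementary isomorphism onto a corner. -/
noncomputable def toHom {p : H103.St.MOp k Γ} (c : H103.St.CornerIso Λ Γ k p) :
    LG Λ →⋆ₙₐ[ℂ] Matrix (Fin k) (Fin k) (LG Γ) where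
  toFun T := matL (c.toFun T.1) (c.map_mem _ ((inL_iff _).mpr T.2)).1
  map_smul' z T := matL_smul _ _ (c.map_smul z _ _ ((inL_iff _).mpr T.2)
    ((inL_iff _).mpr (z • T).2) ((isSmul_iff _ _ _).mpr rfl))
  map_zero' := by
    have h := matL_smul (c := 0) (c.map_mem _ ((inL_iff _).mpr (0 : LG Λ).2)).1
      (c.map_mem _ ((inL_iff _).mpr (0 : LG Λ).2)).1 (c.map_smul 0 _ _
        ((inL_iff _).mpr (0 : LG Λ).2) ((inL_iff _).mpr (0 : LG Λ).2)
        ((isSmul_iff _ _ _).mpr (by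
          show (0 : Ell2 Λ →L[ℂ] Ell2 Λ) = (0 : ℂ) • 0
          rw [smul_zero])))
    rw [zero_smul] at h
    exact h
  map_add' S T := by
    have hS := (inL_iff _).mpr S.2
    have hT := (inL_iff _).mpr T.2
    have h := c.map_add _ _ hS hT
    rw [← matL_add _ _ _ _ (by rw [← h]; exact (c.map_mem _ ((inL_iff _).mpr (S + T).2)).1)]
    exact matL_congr h
  map_mul' S T := by
    have hS := (inL_iff _).mpr S.2
    have hT := (inL_iff _).mpr T.2
    have h := c.map_mul _ _ hS hT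
    rw [← matL_mul _ _ _ _ (inM_mmul (c.map_mem _ hS).1 (c.map_mem _ hT).1)]
    exact matL_congr h
  map_star' T := matL_star _ _ (c.map_adj _ _ ((inL_iff _).mpr T.2)
    ((inL_iff _).mpr (star T).2) ((isAdj_iff _ _).mpr rfl))

theorem cornerIso_toHom {p : H103.St.MOp k Γ} (hp : H103.St.IsProj p)
    (c : H103.St.CornerIso Λ Γ k p) : H820.CornerIso (toHom c) where
  inj := by
    intro S T h
    have h1 : c.toFun S.1 = c.toFun T.1 := matL_inj
      (hA := (c.map_mem _ ((inL_iff _).mpr S.2)).1) (hB := (c.map_mem _ ((inL_iff _).mpr T.2)).1) h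
    apply Subtype.ext
    rw [← c.left_inv _ ((inL_iff _).mpr S.2), h1, c.left_inv _ ((inL_iff _).mpr T.2)]
  surj := by
    intro x hx
    -- the unit is mapped to `p`
    have hpC : H103.St.InC p p := ⟨hp.mem, hp.idem, hp.idem⟩
    obtain ⟨P, hP⟩ : ∃ P : LG Λ, P = ⟨c.invFun p, (inL_iff _).mp (c.inv_mem _ hpC)⟩ := ⟨_, rfl⟩
    have hPp : toHom c P = matL p hp.mem := by
      subst hP
      exact matL_congr (c.right_inv _ hpC) (hA := (c.map_mem _ (c.inv_mem _ hpC)).1)
        (hB := hp.mem)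
    have h1p : toHom c 1 = matL p hp.mem := by
      have h1C := c.map_mem _ ((inL_iff _).mpr (1 : LG Λ).2)
      have h2 : toHom c 1 * matL p hp.mem = toHom c 1 := by
        have h3 := matL_mul _ _ h1C.1 hp.mem (inM_mmul h1C.1 hp.mem)
        exact h3.symm.trans (matL_congr h1C.2.2 (hA := inM_mmul h1C.1 hp.mem) (hB := h1C.1))
      have h4 : toHom c 1 * matL p hp.mem = matL p hp.mem := by
        rw [← hPp, ← map_mul, one_mul]
      rw [← h2, h4]
    rw [h1p] at hx
    obtain ⟨A, hA⟩ : ∃ A : H103.St.MOp k Γ, A = fun i j => (x i j : Ell2 Γ →L[ℂ] Ell2 Γ) :=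
      ⟨_, rfl⟩
    have hAm : H103.St.InM A := fun i j => by
      rw [hA]
      exact (inL_iff _).mpr (x i j).2
    have hAx : matL A hAm = x := by
      subst hA
      rfl
    have hpp : matL p hp.mem * matL p hp.mem = matL p hp.mem := by
      rw [← matL_mul _ _ _ _ (inM_mmul hp.mem hp.mem)]
      exact matL_congr hp.idem (hA := inM_mmul hp.mem hp.mem) (hB := hp.mem)
    have hA1 : H103.St.mmul p A = A := by
      apply matL_inj (hA := inM_mmul hp.mem hAm) (hB := hAm)
      rw [matL_mul _ _ hp.mem hAm, hAx]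
      conv_rhs => rw [← hx]
      conv_lhs => rw [← hx]
      rw [← mul_assoc, ← mul_assoc, hpp]
    have hA2 : H103.St.mmul A p = A := by
      apply matL_inj (hA := inM_mmul hAm hp.mem) (hB := hAm)
      rw [matL_mul _ _ hAm hp.mem, hAx]
      conv_rhs => rw [← hx]
      conv_lhs => rw [← hx]
      rw [mul_assoc, hpp]
    have hAC : H103.St.InC p A := ⟨hAm, hA1, hA2⟩
    refine ⟨⟨c.invFun A, (inL_iff _).mp (c.inv_mem _ hAC)⟩, ?_⟩
    exact (matL_congr (c.right_inv _ hAC) (hA := (c.map_mem _ (c.inv_mem _ hAC)).1)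
      (hB := hAm)).trans hAx

/-- From an isomorphism onto a corner to the row model, if one of the groups is ICC. -/
theorem aframe_of_iso {p : H103.St.MOp k Γ} (hp : H103.St.IsProj p)
    (c : H103.St.CornerIso Λ Γ k p)
    (hI : (∀ g : Γ, g ≠ 1 → Set.Infinite {y : Γ | ∃ h, y = h * g * h⁻¹}) ∨
      (∀ g : Λ, g ≠ 1 → Set.Infinite {y : Λ | ∃ h, y = h * g * h⁻¹})) :
    ∃ (t : ℝ) (R : Λ → (Ell2 (Γ × Fin k) →L[ℂ] Ell2 (Γ × Fin k))), AFrame t R := by
  rcases hI with h | h
  · obtain ⟨t, -, R, hR⟩ := exists_aframe' h (cornerIso_toHom hp c)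
    exact ⟨t, R, hR⟩
  · obtain ⟨t, -, R, hR⟩ := exists_aframe h (cornerIso_toHom hp c)
    exact ⟨t, R, hR⟩

end br

end Vale.Agent.P092.H19
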