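import Vale.Agent.P092.H19.MulVol

/-!
P092 (helper19): fundamental domains for the right multiplication by a countable group of matrices.
-/

open Matrix MeasureTheory Set

namespace Vale.Agent.P092.H19

variable {n : ℕ}

/-- the special linear group -/
abbrev En (n : ℕ) : Type := Matrix.SpecialLinearGroup (Fin n) ℝ

/-- right multiplication -/
def rm (h : En n) (g : Mn n) : Mn n := mr (h : Matrix (Fin n) (Fin n) ℝ) g

/-- left multiplication -/
def lm (h : En n) (g : Mn n) : Mn n := ml (h : Matrix (Fin n) (Fin n) ℝ) g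

lemma rm_one (g : Mn n) : rm 1 g = g := by
  rw [rm, mr, Matrix.SpecialLinearGroup.coe_one, mul_one]
  rfl

lemma rm_rm (h k : En n) (g : Mn n) : rm k (rm h g) = rm (h * k) g := by
  rw [rm, mr, rm, mr, rm, mr, Matrix.SpecialLinearGroup.coe_mul, ← Matrix.mul_assoc]
  rfl

lemma lm_one (g : Mn n) : lm 1 g = g := by
  rw [lm, ml, Matrix.SpecialLinearGroup.coe_one, one_mul]
  rfl

lemma lm_lm (h k : En n) (g : Mn n) : lm k (lm h g) = lm (k * h) g := by
  rw [lm, ml, lm, ml, lm, ml, Matrix.SpecialLinearGroup.coe_mul, Matrix.mul_assoc]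
  rfl

lemma lm_rm (h k : En n) (g : Mn n) : lm h (rm k g) = rm k (lm h g) := by
  show (h : Matrix (Fin n) (Fin n) ℝ) * (Matrix.of g * k) = (h * Matrix.of g) * k
  rw [Matrix.mul_assoc]

lemma rm_inv_rm (h : En n) (g : Mn n) : rm h⁻¹ (rm h g) = g := by
  rw [rm_rm, mul_inv_cancel, rm_one]

lemma rm_rm_inv (h : En n) (g : Mn n) : rm h (rm h⁻¹ g) = g := by
  rw [rm_rm, inv_mul_cancel, rm_one]

lemma mp_rm (h : En n) : MeasurePreserving (rm h) (volume : Measure (Mn n)) volume :=
  mp_mr _ (by rw [Matrix.SpecialLinearGroup.det_coe, abs_one])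

lemma mp_lm (h : En n) : MeasurePreserving (lm h) (volume : Measure (Mn n)) volume :=
  mp_ml _ (by rw [Matrix.SpecialLinearGroup.det_coe, abs_one])

/-- the matrices with determinant in `(0, 1]` -/
def Om (n : ℕ) : Set (Mn n) := {g | 0 < (Matrix.of g).det ∧ (Matrix.of g).det ≤ 1}

lemma det_rm (h : En n) (g : Mn n) : (Matrix.of (rm h g)).det = (Matrix.of g).det := by
  show (Matrix.of g * (h : Matrix (Fin n) (Fin n) ℝ)).det = _
  rw [Matrix.det_mul, Matrix.SpecialLinearGroup.det_coe, mul_one]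

lemma det_lm (h : En n) (g : Mn n) : (Matrix.of (lm h g)).det = (Matrix.of g).det := by
  show ((h : Matrix (Fin n) (Fin n) ℝ) * Matrix.of g).det = _
  rw [Matrix.det_mul, Matrix.SpecialLinearGroup.det_coe, one_mul]

lemma rm_mem_Om (h : En n) (g : Mn n) : rm h g ∈ Om n ↔ g ∈ Om n := by
  simp only [Om, mem_ofPred_eq, det_rm]

lemma lm_mem_Om (h : En n) (g : Mn n) : lm h g ∈ Om n ↔ g ∈ Om n := by
  simp only [Om, mem_ofPred_eq, det_lm]

lemma measurable_det : Measurable fun g : Mn n => (Matrix.of g).det := by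
  have : Continuous fun g : Mn n => (Matrix.of g).det :=
    Continuous.matrix_det (continuous_id : Continuous fun g : Mn n => g)
  exact this.measurable

lemma measurableSet_Om : MeasurableSet (Om n) :=
  (measurableSet_lt measurable_const measurable_det).inter
    (measurableSet_le measurable_det measurable_const)

/-- `D` contains exactly one point of each orbit in `Om` -/
def Tile (Λ : Subgroup (En n)) (D : Set (Mn n)) : Prop :=
  MeasurableSet D ∧ D ⊆ Om n ∧ ∀ g ∈ Om n, ∃! k : Λ, rm (k : En n) g ∈ D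

lemma Tile.disj {Λ : Subgroup (En n)} {D : Set (Mn n)} (h : Tile Λ D) {k l : Λ} (hkl : k ≠ l) :
    Disjoint (rm (k : En n) ⁻¹' D) (rm (l : En n) ⁻¹' D) := by
  rw [Set.disjoint_left]
  intro g h1 h2
  have hg : g ∈ Om n := (rm_mem_Om _ g).1 (h.2.1 h1)
  exact hkl ((h.2.2 g hg).unique h1 h2)

/-- Two tiles have the same volume in each invariant set. -/
theorem tile_eq (Λ : Subgroup (En n)) [Countable Λ] {D₁ D₂ P : Set (Mn n)} (h₁ : Tile Λ D₁)
    (h₂ : Tile Λ D₂) (hP : MeasurableSet P) (hinv : ∀ (k : Λ) g, rm (k : En n) g ∈ P ↔ g ∈ P) :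
    volume (D₁ ∩ P) = volume (D₂ ∩ P) := by
  have key : ∀ {A B : Set (Mn n)}, Tile Λ A → Tile Λ B →
      volume (A ∩ P) = ∑' k : Λ, volume (A ∩ P ∩ rm (k : En n) ⁻¹' B) := by
    intro A B hA hB
    rw [← measure_iUnion]
    · congr 1
      ext g
      simp only [mem_inter_iff, mem_iUnion, mem_preimage]
      constructor
      · rintro ⟨h1, h2⟩
        obtain ⟨k, hk, -⟩ := hB.2.2 g (hA.2.1 h1)
        exact ⟨k, ⟨h1, h2⟩, hk⟩
      · rintro ⟨k, h1, -⟩
        exact h1
    · intro k l hkl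
      exact (hB.disj hkl).mono inter_subset_right inter_subset_right
    · intro k
      exact (hA.1.inter hP).inter ((mp_rm _).measurable hB.1)
  rw [key h₁ h₂, key h₂ h₁, ← (Equiv.inv Λ).tsum_eq]
  refine tsum_congr fun k => ?_
  have h3 := (mp_rm ((Equiv.inv Λ k : Λ) : En n)).measure_preimage
    ((h₂.1.inter hP).inter ((mp_rm (k : En n)).measurable h₁.1)).nullMeasurableSet
  rw [← h3]
  congr 1
  ext g
  simp only [mem_inter_iff, mem_preimage, Equiv.inv_apply, InvMemClass.coe_inv, rm_rm_inv]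
  have h4 := hinv k⁻¹ g
  rw [InvMemClass.coe_inv] at h4
  rw [h4]
  tauto

/-- A tile has volume at most that of a set meeting almost every orbit. -/
theorem tile_le (Λ : Subgroup (En n)) [Countable Λ] {D S : Set (Mn n)} (h : Tile Λ D)
    (hS : MeasurableSet S)
    (hcov : ∀ᵐ g ∂(volume : Measure (Mn n)), g ∈ Om n → ∃ k : Λ, rm (k : En n) g ∈ S) :
    volume D ≤ volume S := by
  calc volume D ≤ volume (⋃ k : Λ, D ∩ rm (k : En n) ⁻¹' S) := by
        refine measure_mono_ae ?_
        filter_upwards [hcov] with g hg hgD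
        obtain ⟨k, hk⟩ := hg (h.2.1 hgD)
        exact mem_iUnion.2 ⟨k, hgD, hk⟩
    _ ≤ ∑' k : Λ, volume (D ∩ rm (k : En n) ⁻¹' S) := measure_iUnion_le _
    _ = ∑' k : Λ, volume (rm ((k : En n)⁻¹) ⁻¹' D ∩ S) := by
        refine tsum_congr fun k => ?_
        have h3 := (mp_rm ((k : En n)⁻¹)).measure_preimage
          (h.1.inter ((mp_rm (k : En n)).measurable hS)).nullMeasurableSet
        rw [← h3]
        congr 1
        ext g
        simp only [mem_inter_iff, mem_preimage, rm_rm_inv]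
    _ = volume (⋃ k : Λ, rm ((k : En n)⁻¹) ⁻¹' D ∩ S) := by
        rw [measure_iUnion]
        · intro k l hkl
          have h4 : k⁻¹ ≠ l⁻¹ := fun hcon => hkl (inv_injective hcon)
          have h5 := h.disj h4
          rw [InvMemClass.coe_inv, InvMemClass.coe_inv] at h5
          exact h5.mono inter_subset_left inter_subset_left
        · exact fun k => ((mp_rm _).measurable h.1).inter hS
    _ ≤ volume S := measure_mono (iUnion_subset fun k => inter_subset_right)

/-- The left translates of a tile are tiles. -/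
theorem Tile.lm {Λ : Subgroup (En n)} {D : Set (Mn n)} (h : Tile Λ D) (x : En n) :
    Tile Λ (lm x ⁻¹' D) := by
  refine ⟨(mp_lm x).measurable h.1, fun g hg => (lm_mem_Om x g).1 (h.2.1 hg), fun g hg => ?_⟩
  obtain ⟨k, hk, hu⟩ := h.2.2 (Vale.Agent.P092.H19.lm x g) ((lm_mem_Om x g).2 hg)
  refine ⟨k, ?_, fun l hl => hu l ?_⟩
  · show Vale.Agent.P092.H19.lm x (rm (k : En n) g) ∈ D
    rw [lm_rm]; exact hk
  · have h1 : Vale.Agent.P092.H19.lm x (rm (l : En n) g) ∈ D := hl
    rw [lm_rm] at h1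
    exact h1

end Vale.Agent.P092.H19
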