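import Vale.Agent.P092.H19.Siegel3
import Vale.Agent.P092.H19.Tile
import Vale.Agent.P092.H790.Sec

/-!
P092 (helper19): `SL_n(ℝ) ⧸ Λ` carries an invariant probability measure for every subgroup `Λ` of
finite index of `SL_n(ℤ)`.
-/

open Matrix MeasureTheory Set

namespace Vale.Agent.P092.H19

variable {n : ℕ}

instance instLocComp : LocallyCompactSpace (En n) := by
  have h : Topology.IsClosedEmbedding ((↑) : En n → Matrix (Fin n) (Fin n) ℝ) :=
    Matrix.SpecialLinearGroup.isClosedEmbedding_val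
  have : LocallyCompactSpace (Matrix (Fin n) (Fin n) ℝ) :=
    inferInstanceAs (LocallyCompactSpace (Fin n → Fin n → ℝ))
  exact h.locallyCompactSpace

instance instSecCount : SecondCountableTopology (En n) := by
  have h : Topology.IsClosedEmbedding ((↑) : En n → Matrix (Fin n) (Fin n) ℝ) :=
    Matrix.SpecialLinearGroup.isClosedEmbedding_val
  have : SecondCountableTopology (Matrix (Fin n) (Fin n) ℝ) :=
    inferInstanceAs (SecondCountableTopology (Fin n → Fin n → ℝ))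
  exact h.isEmbedding.secondCountableTopology

section nrm

variable {m : ℕ}

/-- an element of the group from a matrix -/
def mkE (A : Matrix (Fin (m + 1)) (Fin (m + 1)) ℝ) (h : A.det = 1) : En (m + 1) := ⟨A, h⟩

lemma coe_mkE (A : Matrix (Fin (m + 1)) (Fin (m + 1)) ℝ) (h : A.det = 1) :
    (mkE A h : Matrix (Fin (m + 1)) (Fin (m + 1)) ℝ) = A := rfl

/-- the inclusion -/
def vl (x : En (m + 1)) : Mn (m + 1) := (x : Matrix (Fin (m + 1)) (Fin (m + 1)) ℝ)

/-- normalisation of the determinant -/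
noncomputable def nrm (g : Mn (m + 1)) : En (m + 1) :=
  if h : 0 < (Matrix.of g).det then
    mkE (((Matrix.of g).det ^ (-((m + 1 : ℕ) : ℝ)⁻¹)) • Matrix.of g) (by
      rw [Matrix.det_smul, Fintype.card_fin, Real.rpow_neg h.le, inv_pow,
        Real.rpow_inv_natCast_pow h.le (Nat.succ_ne_zero m), inv_mul_cancel₀ h.ne'])
  else 1

lemma nrm_coe (g : Mn (m + 1)) (h : 0 < (Matrix.of g).det) :
    (nrm g : Matrix (Fin (m + 1)) (Fin (m + 1)) ℝ) =
      ((Matrix.of g).det ^ (-((m + 1 : ℕ) : ℝ)⁻¹)) • Matrix.of g := by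
  rw [nrm, dif_pos h, coe_mkE]

lemma nrm_rm (h : En (m + 1)) (g : Mn (m + 1)) (hg : 0 < (Matrix.of g).det) :
    nrm (rm h g) = nrm g * h := by
  apply Subtype.ext
  have h1 : 0 < (Matrix.of (rm h g)).det := by rwa [det_rm]
  rw [nrm_coe _ h1, det_rm]
  show _ = (nrm g : Matrix (Fin (m + 1)) (Fin (m + 1)) ℝ) * h
  rw [nrm_coe _ hg, Matrix.smul_mul]
  rfl

lemma nrm_lm (h : En (m + 1)) (g : Mn (m + 1)) (hg : 0 < (Matrix.of g).det) :
    nrm (lm h g) = h * nrm g := by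
  apply Subtype.ext
  have h1 : 0 < (Matrix.of (lm h g)).det := by rwa [det_lm]
  rw [nrm_coe _ h1, det_lm]
  show _ = (h : Matrix (Fin (m + 1)) (Fin (m + 1)) ℝ) * nrm g
  rw [nrm_coe _ hg, Matrix.mul_smul]
  rfl

lemma measurable_nrm [MeasurableSpace (En (m + 1))] [BorelSpace (En (m + 1))] :
    Measurable (nrm (m := m)) := by
  have hP : MeasurableSet {g : Mn (m + 1) | 0 < (Matrix.of g).det} :=
    measurableSet_lt measurable_const measurable_det
  have hemb : MeasurableEmbedding (vl (m := m)) := by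
    have h : Topology.IsClosedEmbedding (vl (m := m)) :=
      Matrix.SpecialLinearGroup.isClosedEmbedding_val
    exact h.measurableEmbedding
  rw [← hemb.measurable_comp_iff]
  classical
  have e1 : (vl (m := m)) ∘ nrm (m := m) = fun g => if 0 < (Matrix.of g).det then
        ((Matrix.of g).det ^ (-((m + 1 : ℕ) : ℝ)⁻¹)) • g else vl 1 := by
    funext g
    by_cases h : 0 < (Matrix.of g).det
    · rw [if_pos h]
      exact nrm_coe g h
    · rw [if_neg h]
      simp only [Function.comp, nrm, dif_neg h]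
  rw [e1]
  refine Measurable.ite hP ?_ measurable_const
  exact (measurable_det.pow_const _).smul measurable_id

end nrm

section tile

variable {m : ℕ}

/-- the tile of a section -/
def sectTile (Λ : Subgroup (En (m + 1))) (σ : En (m + 1) ⧸ Λ → En (m + 1)) : Set (Mn (m + 1)) :=
  Om (m + 1) ∩ {g | σ (nrm g : En (m + 1) ⧸ Λ) = nrm g}

lemma sectTile_tile (Λ : Subgroup (En (m + 1))) [MeasurableSpace (En (m + 1))]
    [BorelSpace (En (m + 1))] [MeasurableSpace (En (m + 1) ⧸ Λ)] [BorelSpace (En (m + 1) ⧸ Λ)]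
    (σ : En (m + 1) ⧸ Λ → En (m + 1)) (hσm : Measurable σ)
    (hσ : ∀ x, (σ x : En (m + 1) ⧸ Λ) = x) : Tile Λ (sectTile Λ σ) := by
  have hq : Measurable ((↑) : En (m + 1) → En (m + 1) ⧸ Λ) :=
    (continuous_quotient_mk').measurable
  have hT2 : T2Space (En (m + 1)) := inferInstance
  refine ⟨measurableSet_Om.inter ?_, inter_subset_left, fun g hg => ?_⟩
  · exact measurableSet_eq_fun (hσm.comp (hq.comp measurable_nrm)) measurable_nrm
  · have hpos := hg.1
    have h1 : (nrm g)⁻¹ * σ (nrm g : En (m + 1) ⧸ Λ) ∈ Λ :=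
      QuotientGroup.eq.1 (hσ (nrm g : En (m + 1) ⧸ Λ)).symm
    have h2 : ∀ k : Λ, ((nrm g * (k : En (m + 1)) : En (m + 1)) : En (m + 1) ⧸ Λ) =
        (nrm g : En (m + 1) ⧸ Λ) := fun k => by
      refine (QuotientGroup.eq.2 ?_).symm
      rw [inv_mul_cancel_left]
      exact k.2
    refine ⟨⟨_, h1⟩, ⟨(rm_mem_Om _ g).2 hg, ?_⟩, fun k hk => ?_⟩
    · show σ (nrm (rm ((nrm g)⁻¹ * σ (nrm g : En (m + 1) ⧸ Λ)) g) : En (m + 1) ⧸ Λ) =
        nrm (rm ((nrm g)⁻¹ * σ (nrm g : En (m + 1) ⧸ Λ)) g)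
      have h3 := h2 ⟨_, h1⟩
      rw [nrm_rm _ _ hpos, h3, mul_inv_cancel_left]
    · have h4 : σ (nrm (rm (k : En (m + 1)) g) : En (m + 1) ⧸ Λ) = nrm (rm (k : En (m + 1)) g) :=
        hk.2
      rw [nrm_rm _ _ hpos, h2 k] at h4
      apply Subtype.ext
      show (k : En (m + 1)) = (nrm g)⁻¹ * σ (nrm g : En (m + 1) ⧸ Λ)
      rw [h4, inv_mul_cancel_left]

lemma vol_Om_pos : 0 < volume (Om (m + 1)) := by
  have h1 : IsOpen {g : Mn (m + 1) | 0 < (Matrix.of g).det ∧ (Matrix.of g).det < 1} := by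
    have hc : Continuous fun g : Mn (m + 1) => (Matrix.of g).det :=
      Continuous.matrix_det (continuous_id : Continuous fun g : Mn (m + 1) => g)
    exact (isOpen_lt continuous_const hc).inter (isOpen_lt hc continuous_const)
  have hh := haarM (m + 1) (m + 1)
  refine lt_of_lt_of_le (h1.measure_pos volume ?_) (measure_mono fun g hg => ⟨hg.1, hg.2.le⟩)
  refine ⟨fun i j => (2⁻¹ : ℝ) * (1 : Matrix (Fin (m + 1)) (Fin (m + 1)) ℝ) i j, ?_⟩
  have h2 : Matrix.of (fun i j => (2⁻¹ : ℝ) * (1 : Matrix (Fin (m + 1)) (Fin (m + 1)) ℝ) i j) =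
      (2⁻¹ : ℝ) • (1 : Matrix (Fin (m + 1)) (Fin (m + 1)) ℝ) := rfl
  show 0 < (Matrix.of (fun i j => (2⁻¹ : ℝ) *
    (1 : Matrix (Fin (m + 1)) (Fin (m + 1)) ℝ) i j)).det ∧ (Matrix.of (fun i j => (2⁻¹ : ℝ) *
    (1 : Matrix (Fin (m + 1)) (Fin (m + 1)) ℝ) i j)).det < 1
  rw [h2, Matrix.det_smul, Matrix.det_one, mul_one, Fintype.card_fin]
  refine ⟨by positivity, pow_lt_one₀ (by norm_num) (by norm_num) (Nat.succ_ne_zero m)⟩

lemma Tile.pos {Λ : Subgroup (En (m + 1))} [Countable Λ] {D : Set (Mn (m + 1))}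
    (h : Tile Λ D) : volume D ≠ 0 := by
  intro h0
  have h1 : volume (Om (m + 1)) ≤ 0 := by
    calc volume (Om (m + 1)) ≤ volume (⋃ k : Λ, rm (k : En (m + 1)) ⁻¹' D) := by
          refine measure_mono fun g hg => ?_
          obtain ⟨k, hk, -⟩ := h.2.2 g hg
          exact mem_iUnion.2 ⟨k, hk⟩
      _ = 0 := by
          refine measure_iUnion_null fun k => ?_
          rw [(mp_rm (k : En (m + 1))).measure_preimage h.1.nullMeasurableSet, h0]
      _ ≤ 0 := le_rfl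
  exact absurd vol_Om_pos (not_lt.2 h1)

/-- **The invariant probability measure of a subgroup with a tile of finite volume.** -/
theorem exists_prob_of_tile (Λ : Subgroup (En (m + 1))) [Countable Λ]
    [MeasurableSpace (En (m + 1) ⧸ Λ)] [BorelSpace (En (m + 1) ⧸ Λ)] {D : Set (Mn (m + 1))}
    (h : Tile Λ D) (hf : volume D < ⊤) :
    ∃ ν : Measure (En (m + 1) ⧸ Λ), IsProbabilityMeasure ν ∧
      ∀ x : En (m + 1), ν.map (fun y => x • y) = ν := by
  borelize (En (m + 1))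
  have hq : Measurable ((↑) : En (m + 1) → En (m + 1) ⧸ Λ) :=
    (continuous_quotient_mk').measurable
  obtain ⟨π, hπ⟩ : ∃ π : Mn (m + 1) → En (m + 1) ⧸ Λ, π = fun g => (nrm g : En (m + 1) ⧸ Λ) :=
    ⟨_, rfl⟩
  have hπm : Measurable π := by rw [hπ]; exact hq.comp measurable_nrm
  have hπrm : ∀ (k : Λ) (g : Mn (m + 1)), g ∈ Om (m + 1) → π (rm (k : En (m + 1)) g) = π g := by
    intro k g hg
    rw [hπ]
    simp only
    rw [nrm_rm _ _ hg.1]
    refine (QuotientGroup.eq.2 ?_).symm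
    rw [inv_mul_cancel_left]
    exact k.2
  have hπlm : ∀ (x : En (m + 1)) (g : Mn (m + 1)), g ∈ Om (m + 1) → π (lm x g) = x • π g := by
    intro x g hg
    rw [hπ]
    simp only
    rw [nrm_lm _ _ hg.1]
    rfl
  refine ⟨(volume D)⁻¹ • (volume.restrict D).map π, ⟨?_⟩, fun x => ?_⟩
  · rw [Measure.smul_apply, Measure.map_apply hπm MeasurableSet.univ, preimage_univ,
      Measure.restrict_apply_univ, smul_eq_mul, ENNReal.inv_mul_cancel h.pos hf.ne]
  · have hxm : Measurable fun y : En (m + 1) ⧸ Λ => x • y := (continuous_const_smul x).measurable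
    rw [Measure.map_smul, Measure.map_map hxm hπm]
    congr 1
    ext A hA
    rw [Measure.map_apply (hxm.comp hπm) hA, Measure.map_apply hπm hA,
      Measure.restrict_apply ((hxm.comp hπm) hA), Measure.restrict_apply (hπm hA)]
    obtain ⟨P, hP⟩ : ∃ P : Set (Mn (m + 1)), P = Om (m + 1) ∩ π ⁻¹' A := ⟨_, rfl⟩
    have hPm : MeasurableSet P := by rw [hP]; exact measurableSet_Om.inter (hπm hA)
    have hinv : ∀ (k : Λ) g, rm (k : En (m + 1)) g ∈ P ↔ g ∈ P := by
      intro k g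
      rw [hP]
      simp only [mem_inter_iff, mem_preimage, rm_mem_Om]
      constructor
      · rintro ⟨h1, h2⟩
        rw [hπrm k g h1] at h2
        exact ⟨h1, h2⟩
      · rintro ⟨h1, h2⟩
        rw [hπrm k g h1]
        exact ⟨h1, h2⟩
    have h1 := tile_eq Λ (h.lm x⁻¹) h hPm hinv
    have h2 := (mp_lm x⁻¹).measure_preimage
      (h.1.inter ((mp_lm x).measurable hPm)).nullMeasurableSet
    have e1 : (fun y : En (m + 1) ⧸ Λ => x • y) ∘ π ⁻¹' A ∩ D = D ∩ lm x ⁻¹' P := by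
      ext g
      rw [hP]
      simp only [mem_inter_iff, mem_preimage, Function.comp, lm_mem_Om]
      constructor
      · rintro ⟨h3, h4⟩
        have h5 := h.2.1 h4
        exact ⟨h4, h5, by rw [hπlm x g h5]; exact h3⟩
      · rintro ⟨h3, h4, h5⟩
        rw [hπlm x g h4] at h5
        exact ⟨h5, h3⟩
    have e2 : π ⁻¹' A ∩ D = D ∩ P := by
      ext g
      rw [hP]
      simp only [mem_inter_iff, mem_preimage]
      constructor
      · rintro ⟨h3, h4⟩
        exact ⟨h4, h.2.1 h4, h3⟩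
      · rintro ⟨h3, h4, h5⟩
        exact ⟨h5, h3⟩
    have e3 : lm x⁻¹ ⁻¹' (D ∩ lm x ⁻¹' P) = lm x⁻¹ ⁻¹' D ∩ P := by
      ext g
      simp only [mem_inter_iff, mem_preimage, lm_lm, mul_inv_cancel, lm_one]
    rw [e1, e2, ← h2, e3, h1]

end tile

section final

variable {m : ℕ}

/-- `SL_n(ℤ)` in `SL_n(ℝ)` -/
abbrev SLZ (m : ℕ) : Subgroup (En (m + 1)) :=
  (Matrix.SpecialLinearGroup.map (Int.castRingHom ℝ) (n := Fin (m + 1))).range

/-- almost every lattice of covolume at most one has a basis in a set of finite volume -/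
lemma cover_SLZ (m : ℕ) : ∃ S : Set (Mn (m + 1)), MeasurableSet S ∧ volume S < ⊤ ∧
    ∀ᵐ g ∂(volume : Measure (Mn (m + 1))), g ∈ Om (m + 1) → ∃ k : SLZ m,
      rm (k : En (m + 1)) g ∈ S := by
  obtain ⟨S, N, hS, hSf, hN, hN0, hcov⟩ := exists_siegel m
  refine ⟨(tp : Mn (m + 1) → Mn (m + 1)) ⁻¹' S, mp_tp.measurable hS, ?_, ?_⟩
  · rw [mp_tp.measure_preimage hS.nullMeasurableSet]; exact hSf
  · have h1 : volume ((tp : Mn (m + 1) → Mn (m + 1)) ⁻¹' N) = 0 := by
      rw [mp_tp.measure_preimage hN.nullMeasurableSet, hN0]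
    filter_upwards [measure_eq_zero_iff_ae_notMem.1 h1] with g hg hgO
    have hdet : (Matrix.of (tp g)).det = (Matrix.of g).det := Matrix.det_transpose (Matrix.of g)
    obtain ⟨γ, hγ⟩ := hcov (tp g) (by rw [hdet]; exact hgO.1.ne')
      (by rw [hdet, abs_of_pos hgO.1]; exact hgO.2) hg
    refine ⟨⟨Matrix.SpecialLinearGroup.map (Int.castRingHom ℝ) (Matrix.SpecialLinearGroup.transpose γ),
      ⟨_, rfl⟩⟩, ?_⟩
    have e1 : tp (rm (Matrix.SpecialLinearGroup.map (Int.castRingHom ℝ)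
        (Matrix.SpecialLinearGroup.transpose γ)) g) = ml (rl γ) (tp g) := by
      ext i j
      simp only [tp, rm, mr, ml, LinearMap.coe_mk, AddHom.coe_mk, Matrix.mul_apply, rl,
        Matrix.of_apply, Matrix.map_apply, Matrix.SpecialLinearGroup.map_apply_coe,
        RingHom.mapMatrix_apply, Matrix.SpecialLinearGroup.coe_transpose, Matrix.transpose_apply]
      exact Finset.sum_congr rfl fun k _ => mul_comm _ _
    show tp (rm (Matrix.SpecialLinearGroup.map (Int.castRingHom ℝ)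
        (Matrix.SpecialLinearGroup.transpose γ)) g) ∈ S
    rw [e1]
    exact hγ

/-- the same for the subgroups that contain a subgroup of finite index of `SL_n(ℤ)` -/
lemma cover_of_relIndex (Λ : Subgroup (En (m + 1))) (hΛ : Λ.relIndex (SLZ m) ≠ 0) :
    ∃ S : Set (Mn (m + 1)), MeasurableSet S ∧ volume S < ⊤ ∧
    ∀ᵐ g ∂(volume : Measure (Mn (m + 1))), g ∈ Om (m + 1) → ∃ k : Λ,
      rm (k : En (m + 1)) g ∈ S := by
  obtain ⟨S, hS, hSf, hcov⟩ := cover_SLZ m
  have hfi : (Λ.subgroupOf (SLZ m)).FiniteIndex := ⟨hΛ⟩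
  have hfin : Finite (SLZ m ⧸ Λ.subgroupOf (SLZ m)) := Subgroup.finite_quotient_of_finiteIndex
  refine ⟨⋃ q : SLZ m ⧸ Λ.subgroupOf (SLZ m), rm ((q.out : SLZ m) : En (m + 1))⁻¹ ⁻¹' S,
    MeasurableSet.iUnion fun q => (mp_rm _).measurable hS, ?_, ?_⟩
  · cases nonempty_fintype (SLZ m ⧸ Λ.subgroupOf (SLZ m))
    refine lt_of_le_of_lt (measure_iUnion_le _) ?_
    rw [tsum_fintype]
    refine ENNReal.sum_lt_top.2 fun q _ => ?_
    rw [(mp_rm _).measure_preimage hS.nullMeasurableSet]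
    exact hSf
  · filter_upwards [hcov] with g hg hgO
    obtain ⟨γ, hγ⟩ := hg hgO
    obtain ⟨q, hq⟩ : ∃ q : SLZ m ⧸ Λ.subgroupOf (SLZ m), q = ((γ⁻¹ : SLZ m) : _) := ⟨_, rfl⟩
    have h1 : (γ⁻¹)⁻¹ * q.out ∈ Λ.subgroupOf (SLZ m) := by
      refine QuotientGroup.eq.1 ?_
      rw [← hq, QuotientGroup.out_eq']
    rw [inv_inv] at h1
    have h2 : ((γ * q.out : SLZ m) : En (m + 1)) ∈ Λ := h1
    refine ⟨⟨_, h2⟩, mem_iUnion.2 ⟨q, ?_⟩⟩
    show rm ((q.out : SLZ m) : En (m + 1))⁻¹ (rm ((γ * q.out : SLZ m) : En (m + 1)) g) ∈ S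
    rw [rm_rm, Subgroup.coe_mul, mul_inv_cancel_right]
    exact hγ

lemma countable_of_disc (Λ : Subgroup (En (m + 1))) [DiscreteTopology Λ] : Countable Λ :=
  TopologicalSpace.separableSpace_iff_countable.1 inferInstance

/-- **A fundamental domain of finite volume** (for the action from the right on the matrices of
determinant in `(0, 1]`). -/
theorem exists_tile (Λ : Subgroup (En (m + 1))) [DiscreteTopology Λ]
    (hΛ : Λ.relIndex (SLZ m) ≠ 0) :
    ∃ D : Set (Mn (m + 1)), Tile Λ D ∧ volume D ≠ 0 ∧ volume D < ⊤ := by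
  borelize (En (m + 1))
  let _ : MeasurableSpace (En (m + 1) ⧸ Λ) := borel _
  have _ : BorelSpace (En (m + 1) ⧸ Λ) := ⟨rfl⟩
  have hc := countable_of_disc Λ
  obtain ⟨σ, hσm, hσ, -⟩ := Vale.Agent.P092.H790.exists_section Λ
  have hD := sectTile_tile Λ σ hσm hσ
  obtain ⟨S, hS, hSf, hcov⟩ := cover_of_relIndex Λ hΛ
  exact ⟨_, hD, hD.pos, lt_of_le_of_lt (tile_le Λ hD hS hcov) hSf⟩

/-- **`SL_n(ℤ)` is a lattice of `SL_n(ℝ)`**; more generally every discrete subgroup `Λ` such that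
`Λ ∩ SL_n(ℤ)` has finite index in `SL_n(ℤ)`. -/
theorem exists_invariant_prob (Λ : Subgroup (En (m + 1))) [DiscreteTopology Λ]
    (hΛ : Λ.relIndex (SLZ m) ≠ 0) [MeasurableSpace (En (m + 1) ⧸ Λ)]
    [BorelSpace (En (m + 1) ⧸ Λ)] :
    ∃ ν : Measure (En (m + 1) ⧸ Λ), IsProbabilityMeasure ν ∧
      ∀ x : En (m + 1), ν.map (fun y => x • y) = ν := by
  have hc := countable_of_disc Λ
  obtain ⟨D, hD, -, hDf⟩ := exists_tile Λ hΛ
  exact exists_prob_of_tile Λ hD hDf

/-- The case of `SL_n(ℤ)`. -/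
theorem exists_invariant_prob_SLZ (m : ℕ) [MeasurableSpace (En (m + 1) ⧸ SLZ m)]
    [BorelSpace (En (m + 1) ⧸ SLZ m)] :
    ∃ ν : Measure (En (m + 1) ⧸ SLZ m), IsProbabilityMeasure ν ∧
      ∀ x : En (m + 1), ν.map (fun y => x • y) = ν :=
  exists_invariant_prob _ (by rw [Subgroup.relIndex_self]; exact one_ne_zero)

end final

end Vale.Agent.P092.H19
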