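import Vale.Agent.P092.H19.Unimod

/-!
P092 (helper19): short vectors of lattices of covolume at most one (Minkowski).
-/

open Matrix MeasureTheory

namespace Vale.Agent.P092.H19

variable {m : ℕ}

/-- **Minkowski.** A lattice of covolume at most one in `ℝ^n` has a nonzero vector with coordinates
in `(-2, 2)`. -/
theorem exists_short (g : Matrix (Fin (m + 1)) (Fin (m + 1)) ℝ) (h0 : g.det ≠ 0)
    (h1 : |g.det| ≤ 1) :
    ∃ k : Fin (m + 1) → ℤ, k ≠ 0 ∧ ∀ j, |∑ i, (k i : ℝ) * g i j| < 2 := by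
  have hli : LinearIndependent ℝ (fun i => g i) := linearIndependent_rows_of_det_ne_zero h0
  obtain ⟨b, hb⟩ : ∃ b : Module.Basis (Fin (m + 1)) ℝ (Fin (m + 1) → ℝ), ∀ i, b i = g i :=
    ⟨basisOfLinearIndependentOfCardEqFinrank hli (by simp), fun i => by simp⟩
  have hfd := ZSpan.isAddFundamentalDomain' b (volume : Measure (Fin (m + 1) → ℝ))
  have hvol : (volume : Measure (Fin (m + 1) → ℝ)) (ZSpan.fundamentalDomain b) ≤ 1 := by
    rw [ZSpan.volume_fundamentalDomain]
    have : (Matrix.of (b : Fin (m + 1) → Fin (m + 1) → ℝ)) = g := by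
      ext i j
      rw [Matrix.of_apply, hb]
    rw [this, ← ENNReal.ofReal_one]
    exact ENNReal.ofReal_le_ofReal h1
  have hball : (volume : Measure (Fin (m + 1) → ℝ)) (Metric.ball 0 2) = (2 * 2) ^ (m + 1) := by
    rw [Real.volume_pi_ball 0 (by norm_num : (0 : ℝ) < 2)]
    simp
  have hcount : Countable (Submodule.span ℤ (Set.range b)).toAddSubgroup :=
    inferInstanceAs (Countable (Submodule.span ℤ (Set.range b)))
  obtain ⟨x, hx0, hx⟩ := exists_ne_zero_mem_lattice_of_measure_mul_two_pow_lt_measure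
    (μ := (volume : Measure (Fin (m + 1) → ℝ))) (s := Metric.ball 0 2) hfd
    (fun x hx => by simpa using hx) (convex_ball _ _) (by
      rw [hball]
      have h2 : Module.finrank ℝ (Fin (m + 1) → ℝ) = m + 1 := by simp
      rw [h2]
      calc _ ≤ 1 * (2 : ENNReal) ^ (m + 1) := by gcongr
        _ < (2 * 2) ^ (m + 1) := by
          rw [one_mul]
          refine ENNReal.pow_lt_pow_left (Nat.succ_ne_zero m) ?_
          norm_num)
  obtain ⟨c, hc⟩ := (Submodule.mem_span_range_iff_exists_fun ℤ).1 x.2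
  refine ⟨c, ?_, fun j => ?_⟩
  · rintro rfl
    apply hx0
    apply Subtype.ext
    rw [← hc]
    simp
  · have h3 : ‖(x : Fin (m + 1) → ℝ)‖ < 2 := by simpa using hx
    have h4 := (norm_le_pi_norm (x : Fin (m + 1) → ℝ) j).trans_lt h3
    have h5 : (x : Fin (m + 1) → ℝ) j = ∑ i, (c i : ℝ) * g i j := by
      rw [← hc]
      simp [Finset.sum_apply, hb]
    rw [h5, Real.norm_eq_abs] at h4
    exact h4

/-- the integer matrix as a real matrix -/
abbrev rl (γ : Matrix.SpecialLinearGroup (Fin (m + 1)) ℤ) :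
    Matrix (Fin (m + 1)) (Fin (m + 1)) ℝ :=
  (γ : Matrix (Fin (m + 1)) (Fin (m + 1)) ℤ).map (Int.cast : ℤ → ℝ)

/-- A lattice of covolume at most one has a basis with a short first vector. -/
theorem exists_short_basis (hm : m ≠ 0) (g : Matrix (Fin (m + 1)) (Fin (m + 1)) ℝ)
    (h0 : g.det ≠ 0) (h1 : |g.det| ≤ 1) :
    ∃ γ : Matrix.SpecialLinearGroup (Fin (m + 1)) ℤ, ∀ j, |(rl γ * g) 0 j| < 2 := by
  obtain ⟨k, hk, hs⟩ := exists_short g h0 h1
  obtain ⟨d, k', hd, hkk, hprim⟩ := exists_prim k hk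
  obtain ⟨γ, hγ⟩ := exists_first_row hm k' hprim
  refine ⟨γ, fun j => ?_⟩
  have h2 : (rl γ * g) 0 j = ∑ i, (k' i : ℝ) * g i j := by
    rw [Matrix.mul_apply]
    refine Finset.sum_congr rfl fun i _ => ?_
    simp [rl, Matrix.map_apply, hγ]
  have h3 : ∑ i, (k i : ℝ) * g i j = d * ∑ i, (k' i : ℝ) * g i j := by
    rw [Finset.mul_sum]
    refine Finset.sum_congr rfl fun i _ => ?_
    rw [hkk i]
    push_cast
    ring
  have h4 := hs j
  rw [h3, abs_mul] at h4
  rw [h2]
  refine lt_of_le_of_lt ?_ h4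
  have h5 : (1 : ℝ) ≤ |(d : ℝ)| := by
    have : (1 : ℤ) ≤ |d| := Int.one_le_abs hd
    exact_mod_cast this
  nlinarith [abs_nonneg (∑ i, (k' i : ℝ) * g i j)]

end Vale.Agent.P092.H19
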