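import Vale.Agent.P092.H19.Siegel

/-!
P092 (helper19): Lebesgue measure on matrices is invariant under the multiplications by matrices of
determinant `± 1`.
-/

open Matrix MeasureTheory Set

namespace Vale.Agent.P092.H19

variable {n : ℕ}

/-- square matrices as functions -/
abbrev Mn (n : ℕ) : Type := Fin n → Fin n → ℝ

/-- the product, as a map of functions -/
def mr (A : Matrix (Fin n) (Fin n) ℝ) (g : Mn n) : Mn n := Matrix.of g * A

/-- the product, as a map of functions -/
def ml (A : Matrix (Fin n) (Fin n) ℝ) (g : Mn n) : Mn n := A * Matrix.of g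

/-- transposition -/
def tp : Mn n →ₗ[ℝ] Mn n where
  toFun g := fun i j => g j i
  map_add' _ _ := rfl
  map_smul' _ _ := rfl

theorem mp_mr (A : Matrix (Fin n) (Fin n) ℝ) (hA : |A.det| = 1) :
    MeasurePreserving (mr A) (volume : Measure (Mn n)) volume := by
  have h0 : A.det ≠ 0 := fun h => by rw [h, abs_zero] at hA; exact zero_ne_one hA
  have h1 : MeasurePreserving (fun v : Fin n → ℝ => v ᵥ* A) volume volume := by
    have h2 := Real.map_matrix_volume_pi_eq_smul_volume_pi (M := Aᵀ) (by rwa [det_transpose])
    have h3 : (fun v : Fin n → ℝ => v ᵥ* A) = (toLin' Aᵀ : (Fin n → ℝ) → Fin n → ℝ) := by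
      ext v
      rw [toLin'_apply, mulVec_transpose]
    refine ⟨?_, ?_⟩
    · rw [h3]
      exact (LinearMap.continuous_of_finiteDimensional _).measurable
    · rw [h3, h2, det_transpose, abs_inv, hA]
      simp
  exact measurePreserving_pi (ι := Fin n) (fun _ => volume) (fun _ => volume) (fun _ => h1)

theorem mp_tp : MeasurePreserving (tp : Mn n → Mn n) volume volume := by
  have hh := haarM n n
  have h1 : LinearMap.det (tp (n := n)) * LinearMap.det (tp (n := n)) = 1 := by
    rw [← LinearMap.det_comp]
    have : (tp (n := n)).comp tp = LinearMap.id := by ext; rfl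
    rw [this, LinearMap.det_id]
  have h2 : |LinearMap.det (tp (n := n))| = 1 := by
    rcases mul_self_eq_one_iff.1 h1 with h | h <;> rw [h] <;> simp
  have h3 : LinearMap.det (tp (n := n)) ≠ 0 := fun h => by
    rw [h, abs_zero] at h2; exact zero_ne_one h2
  refine ⟨(LinearMap.continuous_of_finiteDimensional _).measurable, ?_⟩
  rw [Measure.map_linearMap_addHaar_eq_smul_addHaar _ h3, abs_inv, h2]
  simp

theorem mp_ml (A : Matrix (Fin n) (Fin n) ℝ) (hA : |A.det| = 1) :
    MeasurePreserving (ml A) (volume : Measure (Mn n)) volume := by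
  have h1 : ml A = (tp : Mn n → Mn n) ∘ (mr Aᵀ) ∘ (tp : Mn n → Mn n) := by
    ext g i j
    simp [ml, mr, tp, Matrix.mul_apply, mul_comm]
  rw [h1]
  exact mp_tp.comp ((mp_mr Aᵀ (by rwa [det_transpose])).comp mp_tp)

end Vale.Agent.P092.H19
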