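import Vale.Agent.P092.H19.Mink

/-!
P092 (helper19): a set of finite Lebesgue measure that meets almost every lattice of covolume at
most one in a basis.
-/

open Matrix MeasureTheory Set

namespace Vale.Agent.P092.H19

section coord

variable (m : ℕ)

/-- the coordinates -/
abbrev Co : Type := ((Fin (m + 1) → ℝ) × (Fin m → ℝ)) × (Fin m → Fin m → ℝ)

/-- the coordinates of a matrix: first row, rest of the first column, the rest -/
def co : (Fin (m + 1) → Fin (m + 1) → ℝ) ≃ₗ[ℝ] Co m where
  toFun g := ((g 0, fun i => g i.succ 0), fun i j => g i.succ j.succ)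
  invFun x := Fin.cons x.1.1 fun i => Fin.cons (x.1.2 i) (x.2 i)
  map_add' _ _ := rfl
  map_smul' _ _ := rfl
  left_inv g := by
    ext i j
    refine Fin.cases ?_ (fun i => ?_) i
    · simp
    · refine Fin.cases ?_ (fun j => ?_) j
      · simp
      · simp
  right_inv x := by
    ext <;> simp

lemma haarM (a b : ℕ) : Measure.IsAddHaarMeasure (volume : Measure (Fin a → Fin b → ℝ)) :=
  Measure.pi.isAddHaarMeasure _

lemma haarC : Measure.IsAddHaarMeasure (volume : Measure (Co m)) := by
  have h1 : Measure.IsAddHaarMeasure (volume : Measure ((Fin (m + 1) → ℝ) × (Fin m → ℝ))) :=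
    Measure.prod.instIsAddHaarMeasure _ _
  have h2 := haarM m m
  exact Measure.prod.instIsAddHaarMeasure _ _

/-- A linear isomorphism maps Lebesgue measure to a multiple of Lebesgue measure. -/
lemma exists_const : ∃ c : NNReal, (volume : Measure (Fin (m + 1) → Fin (m + 1) → ℝ)).map (co m) =
    c • (volume : Measure (Co m)) := by
  have h0 := haarM (m + 1) (m + 1)
  have h1' : Measure.IsAddHaarMeasure ((volume : Measure (Fin (m + 1) → Fin (m + 1) → ℝ)).map
      (co m).toContinuousLinearEquiv) := inferInstance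
  have h1 : Measure.IsAddHaarMeasure ((volume : Measure (Fin (m + 1) → Fin (m + 1) → ℝ)).map
      (co m)) := h1'
  have h2 := haarC m
  exact ⟨_, Measure.isAddLeftInvariant_eq_smul _ _⟩

end coord

section slice

variable {m : ℕ}

/-- the normalised Schur complement -/
noncomputable def sch (x : Co m) : Fin m → Fin m → ℝ :=
  (|x.1.1 0| ^ ((m : ℝ)⁻¹)) • (x.2 - fun i j => x.1.2 i * x.1.1 j.succ / x.1.1 0)

lemma measurable_sch : Measurable (sch (m := m)) := by
  have h0 : Measurable fun x : Co m => x.1.1 0 :=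
    (measurable_pi_apply 0).comp (measurable_fst.comp measurable_fst)
  refine Measurable.smul ((Real.continuous_rpow_const (by positivity)).measurable.comp
    (continuous_abs.measurable.comp h0)) ?_
  refine Measurable.sub measurable_snd ?_
  refine measurable_pi_lambda _ fun i => measurable_pi_lambda _ fun j => ?_
  refine Measurable.div (Measurable.mul ?_ ?_) h0
  · exact (measurable_pi_apply i).comp (measurable_snd.comp measurable_fst)
  · exact (measurable_pi_apply j.succ).comp (measurable_fst.comp measurable_fst)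

/-- the volume of the slices -/
lemma vol_slice (hm : m ≠ 0) (y : (Fin (m + 1) → ℝ) × (Fin m → ℝ)) (hy : y.1 0 ≠ 0)
    (T : Set (Fin m → Fin m → ℝ)) :
    volume {W | sch (y, W) ∈ T} = ENNReal.ofReal (|y.1 0| ^ m)⁻¹ * volume T := by
  have hh := haarM m m
  have hc : |y.1 0| ^ ((m : ℝ)⁻¹) ≠ 0 := (Real.rpow_pos_of_pos (abs_pos.2 hy) _).ne'
  have e1 : {W | sch (y, W) ∈ T} = (fun W => W - fun i j => y.2 i * y.1 j.succ / y.1 0) ⁻¹'
      ((fun W : Fin m → Fin m → ℝ => (|y.1 0| ^ ((m : ℝ)⁻¹)) • W) ⁻¹' T) := rfl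
  rw [e1]
  simp only [sub_eq_add_neg]
  rw [measure_preimage_add_right, Measure.addHaar_preimage_smul _ hc]
  congr 2
  have h1 : Module.finrank ℝ (Fin m → Fin m → ℝ) = m * m := by
    rw [Module.finrank_pi_fintype]; simp
  rw [h1, abs_inv, abs_pow, abs_of_nonneg (by positivity), pow_mul,
    Real.rpow_inv_natCast_pow (abs_nonneg _) hm]

/-- the set of the induction -/
def SS (T : Set (Fin m → Fin m → ℝ)) : Set (Co m) :=
  {x | x.1.1 0 ≠ 0 ∧ (∀ i, |x.1.1 i| < 2) ∧
    (∀ j, 0 ≤ x.1.2 j / x.1.1 0 ∧ x.1.2 j / x.1.1 0 < 1) ∧ sch x ∈ T}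

lemma meas_co0 : Measurable fun x : Co m => x.1.1 0 :=
  (measurable_pi_apply 0).comp (measurable_fst.comp measurable_fst)

lemma measurable_SS {T : Set (Fin m → Fin m → ℝ)} (hT : MeasurableSet T) :
    MeasurableSet (SS T) := by
  have h1 : MeasurableSet {x : Co m | x.1.1 0 ≠ 0} :=
    (measurableSet_eq_fun meas_co0 measurable_const).compl
  have h2 : MeasurableSet {x : Co m | ∀ i, |x.1.1 i| < 2} := by
    rw [show {x : Co m | ∀ i, |x.1.1 i| < 2} = ⋂ i, {x : Co m | |x.1.1 i| < 2} by ext; simp]
    refine MeasurableSet.iInter fun i => measurableSet_lt ?_ measurable_const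
    exact continuous_abs.measurable.comp
      ((measurable_pi_apply i).comp (measurable_fst.comp measurable_fst))
  have hd : ∀ j, Measurable fun x : Co m => x.1.2 j / x.1.1 0 := fun j =>
    Measurable.div ((measurable_pi_apply j).comp (measurable_snd.comp measurable_fst)) meas_co0
  have h3 : MeasurableSet {x : Co m | ∀ j, 0 ≤ x.1.2 j / x.1.1 0 ∧ x.1.2 j / x.1.1 0 < 1} := by
    rw [show {x : Co m | ∀ j, 0 ≤ x.1.2 j / x.1.1 0 ∧ x.1.2 j / x.1.1 0 < 1} =
      ⋂ j, ({x : Co m | 0 ≤ x.1.2 j / x.1.1 0} ∩ {x : Co m | x.1.2 j / x.1.1 0 < 1}) by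
        ext; simp]
    exact MeasurableSet.iInter fun j => (measurableSet_le measurable_const (hd j)).inter
      (measurableSet_lt (hd j) measurable_const)
  exact h1.inter (h2.inter (h3.inter (measurable_sch hT)))

/-- the boxes -/
lemma vol_box (v : ℝ) (hv : v ≠ 0) :
    volume {a : Fin m → ℝ | ∀ j, 0 ≤ a j / v ∧ a j / v < 1} = ENNReal.ofReal (|v| ^ m) := by
  have e1 : {a : Fin m → ℝ | ∀ j, 0 ≤ a j / v ∧ a j / v < 1} =
      (fun a : Fin m → ℝ => v⁻¹ • a) ⁻¹' (Set.pi Set.univ fun _ => Set.Ico (0 : ℝ) 1) := by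
    ext a
    simp only [mem_ofPred_eq, mem_preimage, mem_pi, mem_univ, true_imp_iff, mem_Ico,
      Pi.smul_apply, smul_eq_mul, div_eq_inv_mul]
  rw [e1, Measure.addHaar_preimage_smul _ (inv_ne_zero hv), Real.volume_pi_Ico]
  simp [abs_pow]

/-- the volume of the set of the induction -/
lemma vol_SS (hm : m ≠ 0) {T : Set (Fin m → Fin m → ℝ)} (hT : MeasurableSet T) :
    volume (SS T) ≤ volume (Metric.ball (0 : Fin (m + 1) → ℝ) 2) * volume T := by
  rw [Measure.volume_eq_prod, Measure.prod_apply (measurable_SS hT), Measure.volume_eq_prod,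
    lintegral_prod _ (measurable_measure_prodMk_left (measurable_SS hT)).aemeasurable]
  calc _ ≤ ∫⁻ v : Fin (m + 1) → ℝ, (Metric.ball 0 2).indicator (fun _ => volume T) v := by
        refine lintegral_mono fun v => ?_
        by_cases hv : v 0 ≠ 0 ∧ ∀ i, |v i| < 2
        · have hvb : v ∈ Metric.ball (0 : Fin (m + 1) → ℝ) 2 := by
            rw [mem_ball_zero_iff, pi_norm_lt_iff (by norm_num)]
            exact hv.2
          rw [Set.indicator_of_mem hvb]
          calc _ ≤ ∫⁻ a : Fin m → ℝ, ({a : Fin m → ℝ | ∀ j, 0 ≤ a j / v 0 ∧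
                a j / v 0 < 1}).indicator
                  (fun _ => ENNReal.ofReal (|v 0| ^ m)⁻¹ * volume T) a := by
                refine lintegral_mono fun a => ?_
                by_cases ha : a ∈ {a : Fin m → ℝ | ∀ j, 0 ≤ a j / v 0 ∧ a j / v 0 < 1}
                · rw [Set.indicator_of_mem ha, ← vol_slice hm (v, a) hv.1]
                  exact measure_mono fun W hW => hW.2.2.2
                · rw [Set.indicator_of_notMem ha]
                  refine le_of_eq (measure_mono_null (t := ∅) (fun W hW => ?_) measure_empty)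
                  exact ha hW.2.2.1
            _ ≤ ENNReal.ofReal (|v 0| ^ m)⁻¹ * volume T * ENNReal.ofReal (|v 0| ^ m) := by
                refine (lintegral_indicator_const_le _ _).trans ?_
                rw [vol_box (v 0) hv.1]
            _ = volume T := by
                have hp : 0 < |v 0| ^ m := pow_pos (abs_pos.2 hv.1) m
                rw [mul_comm, ← mul_assoc, ← ENNReal.ofReal_mul hp.le, mul_inv_cancel₀ hp.ne',
                  ENNReal.ofReal_one, one_mul]
        · refine le_of_eq_of_le ?_ bot_le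
          refine (lintegral_congr fun a => ?_).trans lintegral_zero
          refine measure_mono_null (t := ∅) (fun W hW => ?_) measure_empty
          exact hv ⟨hW.1, hW.2.1⟩
    _ ≤ _ := by
        rw [lintegral_indicator_const Metric.isOpen_ball.measurableSet, mul_comm]

/-- null sets of the induction -/
lemma null_sch (hm : m ≠ 0) {N : Set (Fin m → Fin m → ℝ)} (hN : MeasurableSet N)
    (h0 : volume N = 0) : volume {x : Co m | x.1.1 0 ≠ 0 ∧ sch x ∈ N} = 0 := by
  have h1 : MeasurableSet {x : Co m | x.1.1 0 ≠ 0 ∧ sch x ∈ N} :=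
    ((measurableSet_eq_fun meas_co0 measurable_const).compl).inter (measurable_sch hN)
  rw [Measure.volume_eq_prod, Measure.measure_prod_null h1]
  refine Filter.Eventually.of_forall fun y => ?_
  by_cases hy : y.1 0 ≠ 0
  · refine measure_mono_null (t := {W | sch (y, W) ∈ N}) (fun W hW => hW.2) ?_
    rw [vol_slice hm y hy, h0, mul_zero]
  · refine measure_mono_null (t := ∅) (fun W hW => hy hW.1) measure_empty

lemma null_co0 : volume {x : Co m | x.1.1 0 = 0} = 0 := by
  have hh := haarC m
  have e1 : {x : Co m | x.1.1 0 = 0} = ((LinearMap.ker ((LinearMap.proj (0 : Fin (m + 1)) :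
      (Fin (m + 1) → ℝ) →ₗ[ℝ] ℝ).comp ((LinearMap.fst ℝ _ _).comp (LinearMap.fst ℝ _ _)) :
      Co m →ₗ[ℝ] ℝ)) : Set (Co m)) := by
    ext x
    simp
  rw [e1]
  refine Measure.addHaar_submodule _ _ fun h => ?_
  have h2 : (((fun _ => 1), 0), 0) ∈ (⊤ : Submodule ℝ (Co m)) := Submodule.mem_top
  rw [← h] at h2
  simp at h2

end slice

end Vale.Agent.P092.H19
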