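import Vale.Agent.P092.H19.Siegel

/-!
P092 (helper19): the induction for the set of finite volume.
-/

open Matrix MeasureTheory Set

namespace Vale.Agent.P092.H19

section alg

variable {m : ℕ}

/-- the Schur complement without normalisation -/
noncomputable def sch0 (g : Matrix (Fin (m + 1)) (Fin (m + 1)) ℝ) : Matrix (Fin m) (Fin m) ℝ :=
  Matrix.of fun i j => g i.succ j.succ - g i.succ 0 * g 0 j.succ / g 0 0

lemma det_sch0 (g : Matrix (Fin (m + 1)) (Fin (m + 1)) ℝ) (h : g 0 0 ≠ 0) :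
    g.det = g 0 0 * (sch0 g).det := by
  obtain ⟨B, hB⟩ : ∃ B : Matrix (Fin (m + 1)) (Fin (m + 1)) ℝ, B = Matrix.of (Fin.cons (g 0)
      fun i j => g i.succ j - g i.succ 0 / g 0 0 * g 0 j) := ⟨_, rfl⟩
  have h1 : g.det = B.det := by
    refine Matrix.det_eq_of_forall_row_eq_smul_add_const
      (Fin.cons 0 fun i => g i.succ 0 / g 0 0) 0 (by simp) fun i j => ?_
    rw [hB]
    refine Fin.cases ?_ (fun i => ?_) i
    · simp
    · simp
  have hs : ∀ i : Fin m, B i.succ 0 = 0 := fun i => by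
    rw [hB]
    simp
    field_simp
    ring
  rw [h1, Matrix.det_succ_column_zero, Fin.sum_univ_succ]
  simp only [hs, mul_zero, zero_mul, Finset.sum_const_zero, add_zero]
  have h2 : B 0 0 = g 0 0 := by rw [hB]; simp
  have h3 : B.submatrix (Fin.succAbove 0) Fin.succ = sch0 g := by
    ext i j
    rw [hB]
    simp [sch0]
    ring
  rw [h2, h3]
  simp

lemma sch_co (g : Matrix (Fin (m + 1)) (Fin (m + 1)) ℝ) :
    sch (co m g) = (|g 0 0| ^ ((m : ℝ)⁻¹)) • sch0 g := rfl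

lemma abs_det_sch (hm : m ≠ 0) (g : Matrix (Fin (m + 1)) (Fin (m + 1)) ℝ) (h : g 0 0 ≠ 0) :
    |(Matrix.of (sch (co m g))).det| = |g.det| := by
  have h1 : Matrix.of (sch (co m g)) = (|g 0 0| ^ ((m : ℝ)⁻¹)) • sch0 g := rfl
  rw [h1, Matrix.det_smul, Fintype.card_fin, Real.rpow_inv_natCast_pow (abs_nonneg _) hm,
    det_sch0 g h, abs_mul, abs_mul, abs_abs]

/-- the block matrix -/
def blk (γ : Matrix.SpecialLinearGroup (Fin m) ℤ) (b : Fin m → ℤ) :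
    Matrix.SpecialLinearGroup (Fin (m + 1)) ℤ :=
  ⟨Matrix.of (Fin.cons (Fin.cons 1 0) fun i =>
    Fin.cons (-b i) ((γ : Matrix (Fin m) (Fin m) ℤ) i)), by
    rw [Matrix.det_succ_row_zero, Fin.sum_univ_succ]
    have h1 : (Matrix.of (Fin.cons (Fin.cons 1 0) fun i =>
        Fin.cons (-b i) ((γ : Matrix (Fin m) (Fin m) ℤ) i)) :
        Matrix (Fin (m + 1)) (Fin (m + 1)) ℤ).submatrix Fin.succ (Fin.succAbove 0) =
        (γ : Matrix (Fin m) (Fin m) ℤ) := by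
      ext i j
      simp
    rw [h1]
    simp⟩

lemma blk_mul_zero (γ : Matrix.SpecialLinearGroup (Fin (m + 1)) ℤ) (b : Fin (m + 1) → ℤ)
    (g : Matrix (Fin (m + 2)) (Fin (m + 2)) ℝ) (j : Fin (m + 2)) :
    (rl (blk γ b) * g) 0 j = g 0 j := by
  rw [Matrix.mul_apply, Fin.sum_univ_succ]
  simp [rl, blk]

lemma blk_mul_succ (γ : Matrix.SpecialLinearGroup (Fin (m + 1)) ℤ) (b : Fin (m + 1) → ℤ)
    (g : Matrix (Fin (m + 2)) (Fin (m + 2)) ℝ) (i : Fin (m + 1)) (j : Fin (m + 2)) :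
    (rl (blk γ b) * g) i.succ j = -(b i : ℝ) * g 0 j + ∑ k, rl γ i k * g k.succ j := by
  rw [Matrix.mul_apply, Fin.sum_univ_succ]
  simp [rl, blk]

lemma sch0_blk (γ : Matrix.SpecialLinearGroup (Fin (m + 1)) ℤ) (b : Fin (m + 1) → ℤ)
    (g : Matrix (Fin (m + 2)) (Fin (m + 2)) ℝ) (h : g 0 0 ≠ 0) :
    sch0 (rl (blk γ b) * g) = rl γ * sch0 g := by
  ext i j
  simp only [sch0, Matrix.of_apply]
  rw [blk_mul_succ, blk_mul_succ, blk_mul_zero, blk_mul_zero, Matrix.mul_apply]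
  simp only [Matrix.of_apply, mul_sub, Finset.sum_sub_distrib]
  rw [add_mul, add_div, Finset.sum_mul, Finset.sum_div]
  have h1 : -(b i : ℝ) * g 0 0 * g 0 j.succ / g 0 0 = -(b i : ℝ) * g 0 j.succ := by
    field_simp
  rw [h1]
  have h2 : ∑ k, rl γ i k * g k.succ 0 * g 0 j.succ / g 0 0 =
      ∑ k, rl γ i k * (g k.succ 0 * g 0 j.succ / g 0 0) :=
    Finset.sum_congr rfl fun k _ => by ring
  rw [h2]
  ring

/-- the step of the reduction -/
lemma step_red (S : Set (Fin (m + 1) → Fin (m + 1) → ℝ))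
    (g : Matrix (Fin (m + 2)) (Fin (m + 2)) ℝ) (h : g 0 0 ≠ 0) (h2 : ∀ j, |g 0 j| < 2)
    (γ : Matrix.SpecialLinearGroup (Fin (m + 1)) ℤ)
    (hγ : rl γ * Matrix.of (sch (co (m + 1) g)) ∈ S) :
    ∃ δ : Matrix.SpecialLinearGroup (Fin (m + 2)) ℤ, co (m + 1) (rl δ * g) ∈ SS S := by
  obtain ⟨b, hb⟩ : ∃ b : Fin (m + 1) → ℤ, b = fun i => ⌊(∑ k, rl γ i k * g k.succ 0) / g 0 0⌋ :=
    ⟨_, rfl⟩
  refine ⟨blk γ b, ?_, ?_, ?_, ?_⟩
  · show (rl (blk γ b) * g) 0 0 ≠ 0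
    rw [blk_mul_zero]; exact h
  · intro i
    show |(rl (blk γ b) * g) 0 i| < 2
    rw [blk_mul_zero]; exact h2 i
  · intro j
    show 0 ≤ (rl (blk γ b) * g) j.succ 0 / (rl (blk γ b) * g) 0 0 ∧
      (rl (blk γ b) * g) j.succ 0 / (rl (blk γ b) * g) 0 0 < 1
    rw [blk_mul_zero, blk_mul_succ, add_div]
    have h3 : -(b j : ℝ) * g 0 0 / g 0 0 = -(b j : ℝ) := by field_simp
    rw [h3, hb]
    simp only
    constructor
    · have := Int.floor_le ((∑ k, rl γ j k * g k.succ 0) / g 0 0)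
      linarith
    · have := Int.lt_floor_add_one ((∑ k, rl γ j k * g k.succ 0) / g 0 0)
      linarith
  · have h3 : Matrix.of (sch (co (m + 1) (rl (blk γ b) * g))) =
        rl γ * Matrix.of (sch (co (m + 1) g)) := by
      show (|(rl (blk γ b) * g) 0 0| ^ (((m + 1 : ℕ) : ℝ)⁻¹)) • sch0 (rl (blk γ b) * g) =
        rl γ * ((|g 0 0| ^ (((m + 1 : ℕ) : ℝ)⁻¹)) • sch0 g)
      rw [sch0_blk γ b g h, blk_mul_zero, Matrix.mul_smul]
    have h4 : sch (co (m + 1) (rl (blk γ b) * g)) = rl γ * Matrix.of (sch (co (m + 1) g)) := h3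
    rw [h4]
    exact hγ

end alg

end Vale.Agent.P092.H19
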