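import Vale.Agent.P092.H19.Siegel2
import Vale.Agent.P092.H19.MulVol

/-!
P092 (helper19): a set of finite volume that contains a basis of almost every lattice of covolume
at most one.
-/

open Matrix MeasureTheory Set

namespace Vale.Agent.P092.H19

lemma det_rl {m : ℕ} (γ : Matrix.SpecialLinearGroup (Fin (m + 1)) ℤ) : (rl γ).det = 1 := by
  have h1 : rl γ = (Int.castRingHom ℝ).mapMatrix (γ : Matrix (Fin (m + 1)) (Fin (m + 1)) ℤ) := rfl
  rw [h1, ← RingHom.map_det, γ.det_coe, map_one]

lemma rl_mul {m : ℕ} (γ δ : Matrix.SpecialLinearGroup (Fin (m + 1)) ℤ) :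
    rl (γ * δ) = rl γ * rl δ := by
  have h1 : ∀ γ : Matrix.SpecialLinearGroup (Fin (m + 1)) ℤ,
    rl γ = (Int.castRingHom ℝ).mapMatrix (γ : Matrix (Fin (m + 1)) (Fin (m + 1)) ℤ) := fun _ => rfl
  rw [h1, h1, h1, Matrix.SpecialLinearGroup.coe_mul, map_mul]

/-- the preimage of a set in coordinates -/
lemma vol_co {m : ℕ} {A : Set (Co m)} (hA : MeasurableSet A) : ∃ c : NNReal,
    volume ((fun g : Mn (m + 1) => co m g) ⁻¹' A) = c * volume A := by
  obtain ⟨c, hc⟩ := exists_const m
  refine ⟨c, ?_⟩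
  have hm : Measurable (co m) :=
    ((co m : Mn (m + 1) →ₗ[ℝ] Co m).continuous_of_finiteDimensional).measurable
  have h1 := congrArg (fun μ => μ A) hc
  rw [Measure.map_apply hm hA] at h1
  exact h1

instance instCountableSL (n : ℕ) : Countable (Matrix.SpecialLinearGroup (Fin n) ℤ) :=
  inferInstanceAs (Countable {A : Fin n → Fin n → ℤ // Matrix.det (Matrix.of A) = 1})

/-- **A set of finite volume containing a basis of almost every lattice of covolume `≤ 1`.** -/
theorem exists_siegel (m : ℕ) : ∃ S N : Set (Mn (m + 1)), MeasurableSet S ∧ volume S < ⊤ ∧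
    MeasurableSet N ∧ volume N = 0 ∧ ∀ g : Mn (m + 1), (Matrix.of g).det ≠ 0 →
      |(Matrix.of g).det| ≤ 1 → g ∉ N →
        ∃ γ : Matrix.SpecialLinearGroup (Fin (m + 1)) ℤ, ml (rl γ) g ∈ S := by
  induction m with
  | zero =>
    refine ⟨Metric.closedBall 0 1, ∅, Metric.isClosed_closedBall.measurableSet, ?_,
      MeasurableSet.empty, measure_empty, fun g h0 h1 _ => ⟨1, ?_⟩⟩
    · have hh := haarM 1 1
      exact (isCompact_closedBall _ _).measure_lt_top
    · have e1 : ml (rl (1 : Matrix.SpecialLinearGroup (Fin 1) ℤ)) g = g := by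
        have : rl (1 : Matrix.SpecialLinearGroup (Fin 1) ℤ) = 1 := by
          rw [rl, Matrix.SpecialLinearGroup.coe_one, Matrix.map_one _ Int.cast_zero Int.cast_one]
        rw [ml, this, one_mul]
        rfl
      rw [e1, mem_closedBall_zero_iff, pi_norm_le_iff_of_nonneg zero_le_one]
      intro i
      rw [pi_norm_le_iff_of_nonneg zero_le_one]
      intro j
      rw [Matrix.det_fin_one] at h1
      have hi : i = 0 := Subsingleton.elim (α := Fin 1) i 0
      have hj : j = 0 := Subsingleton.elim (α := Fin 1) j 0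
      rw [hi, hj, Real.norm_eq_abs]
      exact h1
  | succ m ih =>
    obtain ⟨S, N, hS, hSf, hN, hN0, hcov⟩ := ih
    have hm : m + 1 ≠ 0 := Nat.succ_ne_zero m
    have hcm : Measurable (co (m + 1)) :=
      ((co (m + 1) : Mn (m + 2) →ₗ[ℝ] Co (m + 1)).continuous_of_finiteDimensional).measurable
    obtain ⟨B, hB⟩ : ∃ B : Set (Co (m + 1)), B = {x | x.1.1 0 = 0} ∪
      {x | x.1.1 0 ≠ 0 ∧ sch x ∈ N} := ⟨_, rfl⟩
    have hBm : MeasurableSet B := by
      rw [hB]
      exact (measurableSet_eq_fun meas_co0 measurable_const).union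
        (((measurableSet_eq_fun meas_co0 measurable_const).compl).inter (measurable_sch hN))
    have hB0 : volume B = 0 := by
      rw [hB]
      exact measure_union_null null_co0 (null_sch hm hN hN0)
    obtain ⟨B', hB'⟩ : ∃ B' : Set (Mn (m + 2)), B' = (fun g : Mn (m + 2) => co (m + 1) g) ⁻¹' B :=
      ⟨_, rfl⟩
    have hB'm : MeasurableSet B' := by rw [hB']; exact hcm hBm
    have hB'0 : volume B' = 0 := by
      obtain ⟨c, hc⟩ := vol_co hBm
      rw [hB', hc, hB0, mul_zero]
    have hmp : ∀ γ : Matrix.SpecialLinearGroup (Fin (m + 2)) ℤ,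
        MeasurePreserving (ml (rl γ)) (volume : Measure (Mn (m + 2))) volume := fun γ =>
      mp_ml _ (by rw [det_rl, abs_one])
    refine ⟨(fun g : Mn (m + 2) => co (m + 1) g) ⁻¹' SS S,
      ⋃ γ : Matrix.SpecialLinearGroup (Fin (m + 2)) ℤ, ml (rl γ) ⁻¹' B',
      hcm (measurable_SS hS), ?_, MeasurableSet.iUnion fun γ => (hmp γ).measurable hB'm, ?_, ?_⟩
    · obtain ⟨c, hc⟩ := vol_co (measurable_SS hS)
      rw [hc]
      refine ENNReal.mul_lt_top ENNReal.coe_lt_top (lt_of_le_of_lt (vol_SS hm hS) ?_)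
      refine ENNReal.mul_lt_top ?_ hSf
      exact measure_ball_lt_top
    · refine measure_iUnion_null fun γ => ?_
      rw [(hmp γ).measure_preimage hB'm.nullMeasurableSet, hB'0]
    · intro g h0 h1 hg
      obtain ⟨γ, hγ⟩ := exists_short_basis hm (Matrix.of g) h0 h1
      have hg' : ml (rl γ) g ∉ B' := fun hcon => hg (mem_iUnion.2 ⟨γ, hcon⟩)
      rw [hB', mem_preimage, hB, mem_union, not_or] at hg'
      obtain ⟨hg0, hgN⟩ := hg'
      have hg0' : (rl γ * Matrix.of g) 0 0 ≠ 0 := hg0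
      have hgN' : sch (co (m + 1) (rl γ * Matrix.of g)) ∉ N := fun hcon => hgN ⟨hg0, hcon⟩
      have hdet : (rl γ * Matrix.of g).det = (Matrix.of g).det := by
        rw [det_mul, det_rl, one_mul]
      have habs := abs_det_sch hm (rl γ * Matrix.of g) hg0'
      rw [hdet] at habs
      obtain ⟨δ, hδ⟩ := hcov (sch (co (m + 1) (rl γ * Matrix.of g))) (by
        intro hcon
        rw [hcon, abs_zero] at habs
        exact h0 (abs_eq_zero.1 habs.symm)) (by rw [habs]; exact h1) hgN'
      obtain ⟨ε, hε⟩ := step_red S (rl γ * Matrix.of g) hg0' hγ δ hδ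
      refine ⟨ε * γ, ?_⟩
      rw [mem_preimage, ml, rl_mul, Matrix.mul_assoc]
      exact hε

end Vale.Agent.P092.H19
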