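import Mathlib

/-!
P092 (helper19): a primitive integer vector is the first row of a matrix in `SL_n(ℤ)`; Minkowski.
-/

open Matrix MeasureTheory

namespace Vale.Agent.P092.H19

section unimod

variable {m : ℕ}

/-- a transvection as an element of `SL` -/
def tv (i j : Fin (m + 1)) (h : i ≠ j) (c : ℤ) : Matrix.SpecialLinearGroup (Fin (m + 1)) ℤ :=
  ⟨transvection i j c, det_transvection_of_ne i j h c⟩

lemma vecMul_tv (k : Fin (m + 1) → ℤ) (i j : Fin (m + 1)) (h : i ≠ j) (c : ℤ) :
    k ᵥ* (tv i j h c : Matrix (Fin (m + 1)) (Fin (m + 1)) ℤ) = k + Pi.single j (k i * c) := by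
  show k ᵥ* transvection i j c = _
  rw [transvection, vecMul_add, vecMul_one]
  congr 1
  ext l
  simp [Matrix.vecMul, dotProduct, Matrix.single, Pi.single_apply]
  by_cases hl : l = j
  · subst hl; simp
  · simp [hl, Ne.symm hl]

/-- the orbit property -/
def Orb (k : Fin (m + 1) → ℤ) : Prop :=
  ∃ γ : Matrix.SpecialLinearGroup (Fin (m + 1)) ℤ,
    k ᵥ* (γ : Matrix (Fin (m + 1)) (Fin (m + 1)) ℤ) = Pi.single 0 1

lemma Orb.of_mul {k : Fin (m + 1) → ℤ} (γ : Matrix.SpecialLinearGroup (Fin (m + 1)) ℤ)
    (h : Orb (k ᵥ* (γ : Matrix (Fin (m + 1)) (Fin (m + 1)) ℤ))) : Orb k := by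
  obtain ⟨δ, hδ⟩ := h
  refine ⟨γ * δ, ?_⟩
  rw [Matrix.SpecialLinearGroup.coe_mul, ← vecMul_vecMul]
  exact hδ

lemma Orb.of_tv {k : Fin (m + 1) → ℤ} (i j : Fin (m + 1)) (h : i ≠ j) (c : ℤ)
    (hk : Orb (k + Pi.single j (k i * c))) : Orb k :=
  Orb.of_mul (tv i j h c) (by rw [vecMul_tv]; exact hk)

/-- a unit entry off place `0` -/
lemma orb_unit {k : Fin (m + 1) → ℤ} {j : Fin (m + 1)} (hj : j ≠ 0) (hk : k j * k j = 1)
    (h0 : ∀ i, i ≠ j → i ≠ 0 → k i = 0) : Orb k := by
  refine Orb.of_tv j 0 hj (k j * (1 - k 0)) ?_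
  refine Orb.of_tv 0 j (Ne.symm hj) (- k j) ?_
  refine ⟨1, ?_⟩
  rw [Matrix.SpecialLinearGroup.coe_one, vecMul_one]
  ext i
  simp only [Pi.add_apply, Pi.single_apply]
  by_cases hi0 : i = 0
  · subst hi0
    simp [Ne.symm hj]
    linear_combination (1 - k 0) * hk
  · by_cases hij : i = j
    · subst hij
      simp [hi0]
      linear_combination (-(1 - k 0) * k i) * hk
    · simp [hi0, hij, h0 i hij hi0]

/-- primitive vectors are in the orbit -/
theorem orb_of_prim (hm : m ≠ 0) : ∀ (N : ℕ) (k : Fin (m + 1) → ℤ),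
    (∑ i, (k i).natAbs ≤ N) → (∀ d : ℤ, (∀ i, d ∣ k i) → d ∣ 1) → Orb k := by
  intro N
  induction N with
  | zero =>
    intro k hk hd
    exfalso
    have h0 : ∀ i, k i = 0 := fun i => by
      have h1 := Finset.single_le_sum (f := fun i => (k i).natAbs) (fun _ _ => Nat.zero_le _)
        (Finset.mem_univ i)
      have h2 : (k i).natAbs = 0 := by
        have := h1.trans hk
        simpa using this
      exact Int.natAbs_eq_zero.1 h2
    have := hd 2 (fun i => by rw [h0 i]; exact dvd_zero _)
    norm_num at this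
  | succ N ih =>
    intro k hk hd
    by_cases hex : ∃ i j, i ≠ j ∧ k i ≠ 0 ∧ (k i).natAbs ≤ (k j).natAbs
    · obtain ⟨i, j, hij, hi, hle⟩ := hex
      refine Orb.of_tv i j hij (-(k j / k i)) (ih _ ?_ ?_)
      · have hnew : k + Pi.single j (k i * -(k j / k i)) = Function.update k j (k j % k i) := by
          ext l
          by_cases hl : l = j
          · subst hl
            simp only [Pi.add_apply, Pi.single_eq_same, Function.update_self]
            have := Int.emod_add_mul_ediv (k l) (k i)
            linarith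
          · simp [hl]
        rw [hnew]
        have h1 : (k j % k i).natAbs < (k j).natAbs := by
          have h2 : (k j % k i).natAbs < (k i).natAbs := by
            have h3 := Int.emod_lt_abs (k j) hi
            have h4 := Int.emod_nonneg (k j) hi
            rw [Int.abs_eq_natAbs] at h3
            omega
          exact lt_of_lt_of_le h2 hle
        have h5 : ∑ l, (Function.update k j (k j % k i) l).natAbs < ∑ l, (k l).natAbs := by
          refine Finset.sum_lt_sum (fun l _ => ?_) ⟨j, Finset.mem_univ j, ?_⟩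
          · by_cases hl : l = j
            · subst hl; rw [Function.update_self]; exact h1.le
            · rw [Function.update_of_ne hl]
          · rw [Function.update_self]; exact h1
        omega
      · intro d hdd
        refine hd d fun l => ?_
        have hi' : d ∣ k i := by
          have := hdd i
          simpa [hij] using this
        by_cases hl : l = j
        · subst hl
          have h1 := hdd l
          simp only [Pi.add_apply, Pi.single_eq_same] at h1
          exact (dvd_add_left (Dvd.dvd.mul_right hi' _)).1 h1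
        · have h1 := hdd l
          simpa [hl] using h1
    · push Not at hex
      -- at most one nonzero entry
      have huniq : ∀ i j, k i ≠ 0 → k j ≠ 0 → i = j := by
        intro i j hi hj
        by_contra hij
        have h1 := hex i j hij hi
        have h2 := hex j i (Ne.symm hij) hj
        omega
      have hne : ∃ i, k i ≠ 0 := by
        by_contra hcon
        push Not at hcon
        have := hd 2 (fun i => by rw [hcon i]; exact dvd_zero _)
        norm_num at this
      obtain ⟨i, hi⟩ := hne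
      have hz : ∀ l, l ≠ i → k l = 0 := fun l hl => by
        by_contra hcon
        exact hl (huniq l i hcon hi)
      have hu : k i ∣ 1 := hd (k i) fun l => by
        by_cases hl : l = i
        · subst hl; exact dvd_rfl
        · rw [hz l hl]; exact dvd_zero _
      have hsq : k i * k i = 1 := by
        rcases Int.isUnit_iff.1 (isUnit_of_dvd_one hu) with h | h <;> rw [h] <;> norm_num
      by_cases hi0 : i = 0
      · subst hi0
        obtain ⟨j, hj⟩ : ∃ j : Fin (m + 1), j ≠ 0 :=
          ⟨Fin.last m, by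
            intro h
            have := congrArg Fin.val h
            simp at this
            exact hm this⟩
        refine Orb.of_tv 0 j (Ne.symm hj) 1 ?_
        refine orb_unit hj ?_ ?_
        · simp [hz j hj, hsq]
        · intro l hl hl0
          simp [hl, hz l hl0]
      · exact orb_unit hi0 hsq fun l hl _ => hz l hl

/-- **A primitive integer vector is the first row of a matrix of `SL_n(ℤ)`**, `n ≥ 2`. -/
theorem exists_first_row (hm : m ≠ 0) (k : Fin (m + 1) → ℤ)
    (hk : ∀ d : ℤ, (∀ i, d ∣ k i) → d ∣ 1) :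
    ∃ γ : Matrix.SpecialLinearGroup (Fin (m + 1)) ℤ,
      (γ : Matrix (Fin (m + 1)) (Fin (m + 1)) ℤ) 0 = k := by
  obtain ⟨γ, hγ⟩ := orb_of_prim hm _ k le_rfl hk
  refine ⟨γ⁻¹, ?_⟩
  have h1 : (k ᵥ* (γ : Matrix (Fin (m + 1)) (Fin (m + 1)) ℤ)) ᵥ*
      ((γ⁻¹ : Matrix.SpecialLinearGroup (Fin (m + 1)) ℤ) : Matrix (Fin (m + 1)) (Fin (m + 1)) ℤ) = k := by
    rw [vecMul_vecMul, ← Matrix.SpecialLinearGroup.coe_mul, mul_inv_cancel, Matrix.SpecialLinearGroup.coe_one,
      vecMul_one]
  rw [hγ] at h1
  rw [← h1]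
  ext j
  simp

/-- A nonzero integer vector is a multiple of a primitive one. -/
theorem exists_prim (k : Fin (m + 1) → ℤ) (hk : k ≠ 0) :
    ∃ (d : ℤ) (k' : Fin (m + 1) → ℤ), d ≠ 0 ∧ (∀ i, k i = d * k' i) ∧
      ∀ e : ℤ, (∀ i, e ∣ k' i) → e ∣ 1 := by
  obtain ⟨i0, hi0⟩ : ∃ i, k i ≠ 0 := by
    by_contra hcon
    push Not at hcon
    exact hk (funext hcon)
  have hg : ∀ i, Finset.univ.gcd k ∣ k i := fun i => Finset.gcd_dvd (Finset.mem_univ i)
  have hg0 : Finset.univ.gcd k ≠ 0 := fun h => hi0 (by
    have := hg i0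
    rw [h] at this
    exact zero_dvd_iff.1 this)
  choose k' hk' using hg
  refine ⟨_, k', hg0, hk', fun e he => ?_⟩
  have h1 : Finset.univ.gcd k * e ∣ Finset.univ.gcd k := by
    refine Finset.dvd_gcd fun i _ => ?_
    rw [hk' i]
    exact mul_dvd_mul_left _ (he i)
  have h2 : Finset.univ.gcd k * e ∣ Finset.univ.gcd k * 1 := by rwa [mul_one]
  exact (mul_dvd_mul_iff_left hg0).1 h2

end unimod

end Vale.Agent.P092.H19
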